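import Vale.Agent.Lib.P042.UB.Defs

set_option autoImplicit false

namespace Vale.Agent.P042.UB

open Polynomial

theorem eval_nat_mono (g : ℤ[X]) (hg : ∀ j : ℕ, 0 ≤ g.coeff j) {n n' : ℕ} (h : n ≤ n') :
    g.eval (n : ℤ) ≤ g.eval (n' : ℤ) := by
  rw [eval_eq_sum_range, eval_eq_sum_range]
  refine Finset.sum_le_sum fun i _ => ?_
  refine mul_le_mul_of_nonneg_left ?_ (hg i)
  exact pow_le_pow_left₀ (by positivity) (by exact_mod_cast h) i

theorem eval_nat_nonneg (g : ℤ[X]) (hg : ∀ j : ℕ, 0 ≤ g.coeff j) (n : ℕ) :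
    0 ≤ g.eval (n : ℤ) := by
  rw [eval_eq_sum_range]
  exact Finset.sum_nonneg fun i _ => mul_nonneg (hg i) (by positivity)

/-- Periodicity of `e(a g(n)/q)`. -/
theorem e_eval_add (g : ℤ[X]) (a : ℤ) {q : ℕ} (hq : 1 ≤ q) (t n : ℕ) :
    e ((a : ℝ) * ((g.eval ((q * t + n : ℕ) : ℤ) : ℤ) : ℝ) / (q : ℝ)) =
      e ((a : ℝ) * ((g.eval (n : ℤ) : ℤ) : ℝ) / (q : ℝ)) := by
  have h1 : ((q : ℤ) * t) ∣ g.eval ((q * t + n : ℕ) : ℤ) - g.eval (n : ℤ) := by
    have := Polynomial.sub_dvd_eval_sub ((q * t + n : ℕ) : ℤ) (n : ℤ) g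
    have h2 : (((q * t + n : ℕ) : ℤ)) - (n : ℤ) = (q : ℤ) * t := by
      push_cast
      ring
    rwa [h2] at this
  obtain ⟨s, hs⟩ := (dvd_trans (dvd_mul_right (q : ℤ) (t : ℤ)) h1)
  have h3 : ((g.eval ((q * t + n : ℕ) : ℤ) : ℤ) : ℝ) =
      ((g.eval (n : ℤ) : ℤ) : ℝ) + (q : ℝ) * (s : ℝ) := by
    have h4 : g.eval ((q * t + n : ℕ) : ℤ) = g.eval (n : ℤ) + (q : ℤ) * s := by linarith
    rw [h4]
    push_cast
    ring
  have hq0 : (q : ℝ) ≠ 0 := by
    have : (0 : ℝ) < q := by exact_mod_cast hq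
    exact this.ne'
  have h5 : (a : ℝ) * ((g.eval ((q * t + n : ℕ) : ℤ) : ℤ) : ℝ) / (q : ℝ) =
      (a : ℝ) * ((g.eval (n : ℤ) : ℤ) : ℝ) / (q : ℝ) + ((a * s : ℤ) : ℝ) := by
    rw [h3]
    push_cast
    field_simp
  rw [h5, e_add_int]

/-- The sum over one shifted block. -/
theorem sum_block (g : ℤ[X]) (a : ℤ) {q : ℕ} (hq : 1 ≤ q) (t : ℕ) :
    ∑ j ∈ Finset.range q, e ((a : ℝ) * ((g.eval ((q * t + j + 1 : ℕ) : ℤ) : ℤ) : ℝ) / (q : ℝ)) =
      (q : ℂ) * cSum g a q := by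
  have hq0 : (q : ℂ) ≠ 0 := by
    have : 0 < q := hq
    exact_mod_cast this.ne'
  have h1 : (q : ℂ) * cSum g a q =
      ∑ x ∈ Finset.range q, e ((a : ℝ) * ((g.eval (x : ℤ) : ℤ) : ℝ) / (q : ℝ)) := by
    unfold cSum
    field_simp
  rw [h1]
  have h2 : ∀ j ∈ Finset.range q,
      e ((a : ℝ) * ((g.eval ((q * t + j + 1 : ℕ) : ℤ) : ℤ) : ℝ) / (q : ℝ)) =
      e ((a : ℝ) * ((g.eval ((j + 1 : ℕ) : ℤ) : ℤ) : ℝ) / (q : ℝ)) := by
    intro j _
    have := e_eval_add g a hq t (j + 1)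
    rwa [← add_assoc] at this
  rw [Finset.sum_congr rfl h2]
  have h3 := Finset.sum_range_succ
    (fun x : ℕ => e ((a : ℝ) * ((g.eval (x : ℤ) : ℤ) : ℝ) / (q : ℝ))) q
  have h4 := Finset.sum_range_succ'
    (fun x : ℕ => e ((a : ℝ) * ((g.eval (x : ℤ) : ℤ) : ℝ) / (q : ℝ))) q
  have h5 : e ((a : ℝ) * ((g.eval (q : ℤ) : ℤ) : ℝ) / (q : ℝ)) =
      e ((a : ℝ) * ((g.eval ((0 : ℕ) : ℤ) : ℤ) : ℝ) / (q : ℝ)) := by
    have := e_eval_add g a hq 1 0
    simpa using this
  rw [h4, h5] at h3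
  exact add_right_cancel h3

/-- Weyl sum near a rational point.

PROOF. Cut `[1, M]` into blocks `(n₀, n₀+q]`, `n₀ = 0, q, 2q, …` (`⌊M/q⌋` of them) and fewer than
`q` remaining terms. In a block replace `e(β g(n))` by `e(β g(n₀))`; `g` is nondecreasing on `ℕ`
(nonnegative coefficients), so the cost is `≤ q · 2π|β| (g(n₀+q) - g(n₀))` (use
`norm_e_sub_e_le`), which telescopes to `≤ 2π|β| q g(M)`. The remaining block sum is
`e(β g(n₀)) · q · cSum g a q` (`g` is `q`-periodic mod `q`), of norm `q ‖cSum‖`. -/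
theorem wSum_approx (g : ℤ[X]) (hg : ∀ j : ℕ, 0 ≤ g.coeff j) (M q : ℕ) (a : ℤ) (β : ℝ)
    (hM : 1 ≤ M) (hq : 1 ≤ q) :
    ‖wSum g M ((a : ℝ) / q + β)‖ ≤ ‖cSum g a q‖ +
      2 * Real.pi * |β| * q * ((g.eval (M : ℤ) : ℤ) : ℝ) / M + q / M := by
  have hMpos : (0 : ℝ) < M := by exact_mod_cast hM
  have hqpos : (0 : ℝ) < q := by exact_mod_cast hq
  set G : ℕ → ℝ := fun n => ((g.eval (n : ℤ) : ℤ) : ℝ) with hG
  have hGmono : ∀ {n n' : ℕ}, n ≤ n' → G n ≤ G n' := fun h => by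
    have := eval_nat_mono g hg h
    simp only [hG]
    exact_mod_cast this
  have hGnonneg : ∀ n, 0 ≤ G n := fun n => by
    have := eval_nat_nonneg g hg n
    simp only [hG]
    exact_mod_cast this
  set F : ℕ → ℂ := fun n => e (((a : ℝ) / q + β) * G n) with hF
  have hFnorm : ∀ n, ‖F n‖ = 1 := fun n => norm_e _
  have hFe : ∀ n, F n = e ((a : ℝ) * G n / q) * e (β * G n) := fun n => by
    simp only [hF]
    rw [← e_add]
    congr 1
    ring
  -- one block
  have hblock : ∀ t : ℕ, ‖∑ j ∈ Finset.range q, F (q * t + j + 1)‖ ≤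
      q * ‖cSum g a q‖ + 2 * Real.pi * |β| * q * (G (q * (t + 1)) - G (q * t)) := by
    intro t
    have h1 : ∑ j ∈ Finset.range q, F (q * t + j + 1) =
        ((q : ℂ) * cSum g a q) * e (β * G (q * t)) +
        ∑ j ∈ Finset.range q, e ((a : ℝ) * G (q * t + j + 1) / q) *
          (e (β * G (q * t + j + 1)) - e (β * G (q * t))) := by
      rw [← sum_block g a hq t, Finset.sum_mul, ← Finset.sum_add_distrib]
      refine Finset.sum_congr rfl fun j _ => ?_
      rw [hFe]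
      simp only [hG]
      ring
    rw [h1]
    refine (norm_add_le _ _).trans (add_le_add ?_ ?_)
    · rw [norm_mul, norm_e, mul_one, norm_mul, Complex.norm_natCast]
    · refine (norm_sum_le _ _).trans ?_
      have h2 : ∀ j ∈ Finset.range q, ‖e ((a : ℝ) * G (q * t + j + 1) / q) *
          (e (β * G (q * t + j + 1)) - e (β * G (q * t)))‖ ≤
          2 * Real.pi * |β| * (G (q * (t + 1)) - G (q * t)) := by
        intro j hj
        rw [Finset.mem_range] at hj
        rw [norm_mul, norm_e, one_mul]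
        refine (norm_e_sub_e_le _ _).trans ?_
        rw [← mul_sub, abs_mul]
        have h3 : G (q * t) ≤ G (q * t + j + 1) := hGmono (by omega)
        have h4 : G (q * t + j + 1) ≤ G (q * (t + 1)) := hGmono (by
          rw [mul_add, mul_one]
          omega)
        rw [abs_of_nonneg (sub_nonneg.2 h3), ← mul_assoc]
        exact mul_le_mul_of_nonneg_left (by linarith) (by positivity)
      refine (Finset.sum_le_sum h2).trans (le_of_eq ?_)
      rw [Finset.sum_const, Finset.card_range, nsmul_eq_mul]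
      ring
  -- all full blocks
  have hfull : ∀ m : ℕ, ‖∑ n ∈ Finset.range (q * m), F (n + 1)‖ ≤
      m * (q * ‖cSum g a q‖) + 2 * Real.pi * |β| * q * (G (q * m) - G 0) := by
    intro m
    induction m with
    | zero => simp
    | succ m ih =>
      rw [mul_add, mul_one, Finset.sum_range_add]
      refine (norm_add_le _ _).trans ((add_le_add ih (hblock m)).trans (le_of_eq ?_))
      rw [mul_add, mul_one]
      push_cast
      ring
  -- the whole sum
  set m : ℕ := M / q with hm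
  have hdm : q * m + M % q = M := Nat.div_add_mod M q
  have hmod : M % q < q := Nat.mod_lt _ hq
  have hsum : ∑ n ∈ Finset.Icc 1 M, F n = ∑ n ∈ Finset.range M, F (n + 1) := by
    have h1 : Finset.Icc 1 M = Finset.Ico 1 (M + 1) := by
      ext x
      simp only [Finset.mem_Icc, Finset.mem_Ico]
      omega
    rw [h1, Finset.sum_Ico_eq_sum_range]
    simp only [Nat.add_sub_cancel]
    exact Finset.sum_congr rfl fun x _ => by rw [add_comm]
  have htot : ‖∑ n ∈ Finset.Icc 1 M, F n‖ ≤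
      M * ‖cSum g a q‖ + 2 * Real.pi * |β| * q * G M + q := by
    rw [hsum]
    have h1 : ∑ n ∈ Finset.range M, F (n + 1) = ∑ n ∈ Finset.range (q * m), F (n + 1) +
        ∑ n ∈ Finset.range (M % q), F (q * m + n + 1) := by
      conv_lhs => rw [← hdm]
      rw [Finset.sum_range_add]
    rw [h1]
    have h2 : ‖∑ n ∈ Finset.range (M % q), F (q * m + n + 1)‖ ≤ q := by
      refine (norm_sum_le _ _).trans ?_
      simp only [hFnorm, Finset.sum_const, Finset.card_range, nsmul_eq_mul, mul_one]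
      exact_mod_cast hmod.le
    have h3 : (m : ℝ) * (q * ‖cSum g a q‖) ≤ M * ‖cSum g a q‖ := by
      rw [← mul_assoc]
      refine mul_le_mul_of_nonneg_right ?_ (norm_nonneg _)
      have : m * q ≤ M := Nat.div_mul_le_self M q
      exact_mod_cast this
    have h4 : G (q * m) - G 0 ≤ G M := by
      have h5 : G (q * m) ≤ G M := hGmono (by omega)
      linarith [hGnonneg 0]
    have h6 : 2 * Real.pi * |β| * q * (G (q * m) - G 0) ≤ 2 * Real.pi * |β| * q * G M :=
      mul_le_mul_of_nonneg_left h4 (by positivity)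
    exact (norm_add_le _ _).trans (add_le_add ((hfull m).trans (add_le_add h3 h6)) h2)
  have hw : ‖wSum g M ((a : ℝ) / q + β)‖ = ‖∑ n ∈ Finset.Icc 1 M, F n‖ / M := by
    unfold wSum
    rw [norm_div, Complex.norm_natCast]
  rw [hw, div_le_iff₀ hMpos]
  refine htot.trans (le_of_eq ?_)
  simp only [hG]
  field_simp

end Vale.Agent.P042.UB
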