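import Vale.Agent.Lib.P042.UB.Defs

set_option autoImplicit false

namespace Vale.Agent.P042.UB

open Polynomial

theorem norm_cSum_le_one (g : ℤ[X]) (a : ℤ) (q : ℕ) : ‖cSum g a q‖ ≤ 1 := by
  unfold cSum
  rw [norm_div, Complex.norm_natCast]
  refine div_le_one_of_le₀ ?_ (Nat.cast_nonneg q)
  refine (norm_sum_le _ _).trans ?_
  simp [norm_e]

/-- `e (a g(x) / q)` depends on `x mod q` only. -/
theorem e_eval_congr (g : ℤ[X]) (a : ℤ) {q : ℕ} (hq : 0 < q) {x y : ℤ}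
    (h : (q : ℤ) ∣ x - y) :
    e ((a : ℝ) * ((g.eval x : ℤ) : ℝ) / (q : ℝ)) = e ((a : ℝ) * ((g.eval y : ℤ) : ℝ) / (q : ℝ)) := by
  obtain ⟨t, ht⟩ := h.trans (sub_dvd_eval_sub x y g)
  have h1 : (a : ℝ) * ((g.eval x : ℤ) : ℝ) / (q : ℝ) =
      (a : ℝ) * ((g.eval y : ℤ) : ℝ) / (q : ℝ) + ((a * t : ℤ) : ℝ) := by
    have h2 : ((g.eval x : ℤ) : ℝ) = ((g.eval y : ℤ) : ℝ) + (q : ℝ) * (t : ℝ) := by
      have : g.eval x = g.eval y + q * t := by linarith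
      rw [this]
      push_cast
      ring
    have hq' : (q : ℝ) ≠ 0 := by exact_mod_cast hq.ne'
    rw [h2]
    push_cast
    field_simp
  rw [h1, e_add_int]

/-- Twisted multiplicativity. -/
theorem cSum_mul (g : ℤ[X]) (q₁ q₂ : ℕ) (hq₁ : 0 < q₁) (hq₂ : 0 < q₂) (hc : q₁.Coprime q₂)
    (a : ℤ) (ha : IsCoprime a ((q₁ * q₂ : ℕ) : ℤ)) :
    ∃ a₁ a₂ : ℤ, IsCoprime a₁ (q₁ : ℤ) ∧ IsCoprime a₂ (q₂ : ℤ) ∧
      cSum g a (q₁ * q₂) = cSum g a₁ q₁ * cSum g a₂ q₂ := by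
  have hcz : IsCoprime (q₂ : ℤ) (q₁ : ℤ) := (Nat.isCoprime_iff_coprime.2 hc).symm
  obtain ⟨u, v, huv⟩ := hcz
  rw [Nat.cast_mul] at ha
  have ha1 : IsCoprime a (q₁ : ℤ) := IsCoprime.of_mul_right_left ha
  have ha2 : IsCoprime a (q₂ : ℤ) := IsCoprime.of_mul_right_right ha
  have hu : IsCoprime u (q₁ : ℤ) := ⟨q₂, v, by linarith⟩
  have hv : IsCoprime v (q₂ : ℤ) := ⟨q₁, u, by linarith⟩
  refine ⟨a * u, a * v, ha1.mul_left hu, ha2.mul_left hv, ?_⟩
  have hq1 : (q₁ : ℝ) ≠ 0 := by exact_mod_cast hq₁.ne'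
  have hq2 : (q₂ : ℝ) ≠ 0 := by exact_mod_cast hq₂.ne'
  have hsplit : ∀ x : ℕ, e ((a : ℝ) * ((g.eval (x : ℤ) : ℤ) : ℝ) / ((q₁ * q₂ : ℕ) : ℝ)) =
      e (((a * u : ℤ) : ℝ) * ((g.eval (((x % q₁ : ℕ) : ℕ) : ℤ) : ℤ) : ℝ) / (q₁ : ℝ)) *
      e (((a * v : ℤ) : ℝ) * ((g.eval (((x % q₂ : ℕ) : ℕ) : ℤ) : ℤ) : ℝ) / (q₂ : ℝ)) := by
    intro x
    have h1 : (q₁ : ℤ) ∣ ((x % q₁ : ℕ) : ℤ) - (x : ℤ) := by
      refine ⟨-((x / q₁ : ℕ) : ℤ), ?_⟩
      have := Nat.mod_add_div x q₁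
      have h2 : ((x % q₁ : ℕ) : ℤ) + (q₁ : ℤ) * ((x / q₁ : ℕ) : ℤ) = (x : ℤ) := by
        exact_mod_cast this
      rw [← h2]
      ring
    have h1' : (q₂ : ℤ) ∣ ((x % q₂ : ℕ) : ℤ) - (x : ℤ) := by
      refine ⟨-((x / q₂ : ℕ) : ℤ), ?_⟩
      have := Nat.mod_add_div x q₂
      have h2 : ((x % q₂ : ℕ) : ℤ) + (q₂ : ℤ) * ((x / q₂ : ℕ) : ℤ) = (x : ℤ) := by
        exact_mod_cast this
      rw [← h2]
      ring
    rw [e_eval_congr g (a * u) hq₁ h1, e_eval_congr g (a * v) hq₂ h1', ← e_add]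
    congr 1
    have huv' : (u : ℝ) * (q₂ : ℝ) + (v : ℝ) * (q₁ : ℝ) = 1 := by exact_mod_cast huv
    push_cast
    field_simp
    calc (a : ℝ) * ((g.eval (x : ℤ) : ℤ) : ℝ) = a * ((g.eval (x : ℤ) : ℤ) : ℝ) * 1 := by ring
      _ = a * ((g.eval (x : ℤ) : ℤ) : ℝ) * ((u : ℝ) * (q₂ : ℝ) + (v : ℝ) * (q₁ : ℝ)) := by
          rw [huv']
      _ = _ := by ring
  unfold cSum
  rw [Finset.sum_congr rfl fun x _ => hsplit x]
  have hsum : ∑ x ∈ Finset.range (q₁ * q₂),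
      e (((a * u : ℤ) : ℝ) * ((g.eval (((x % q₁ : ℕ) : ℕ) : ℤ) : ℤ) : ℝ) / (q₁ : ℝ)) *
      e (((a * v : ℤ) : ℝ) * ((g.eval (((x % q₂ : ℕ) : ℕ) : ℤ) : ℤ) : ℝ) / (q₂ : ℝ)) =
      ∑ z ∈ Finset.range q₁ ×ˢ Finset.range q₂,
      e (((a * u : ℤ) : ℝ) * ((g.eval ((z.1 : ℕ) : ℤ) : ℤ) : ℝ) / (q₁ : ℝ)) *
      e (((a * v : ℤ) : ℝ) * ((g.eval ((z.2 : ℕ) : ℤ) : ℤ) : ℝ) / (q₂ : ℝ)) := by
    refine Finset.sum_nbij (fun x => (x % q₁, x % q₂)) ?_ ?_ ?_ ?_
    · intro x _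
      rw [Finset.mem_product, Finset.mem_range, Finset.mem_range]
      exact ⟨Nat.mod_lt _ hq₁, Nat.mod_lt _ hq₂⟩
    · intro x hx y hy hxy
      rw [Finset.mem_coe, Finset.mem_range] at hx hy
      have h1 : x % q₁ = y % q₁ := congrArg Prod.fst hxy
      have h2 : x % q₂ = y % q₂ := congrArg Prod.snd hxy
      have h3 : x ≡ y [MOD q₁ * q₂] := (Nat.modEq_and_modEq_iff_modEq_mul hc).1 ⟨h1, h2⟩
      exact Nat.ModEq.eq_of_lt_of_lt h3 hx hy
    · rintro ⟨s, t⟩ hst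
      rw [Finset.mem_coe, Finset.mem_product, Finset.mem_range, Finset.mem_range] at hst
      have h1 := (Nat.chineseRemainder hc s t).2
      refine ⟨(Nat.chineseRemainder hc s t : ℕ), ?_, ?_⟩
      · rw [Finset.mem_coe, Finset.mem_range]
        exact Nat.chineseRemainder_lt_mul hc s t hq₁.ne' hq₂.ne'
      · have h2 : (Nat.chineseRemainder hc s t : ℕ) % q₁ = s := by
          have := h1.1
          rw [Nat.ModEq, Nat.mod_eq_of_lt hst.1] at this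
          exact this
        have h3 : (Nat.chineseRemainder hc s t : ℕ) % q₂ = t := by
          have := h1.2
          rw [Nat.ModEq, Nat.mod_eq_of_lt hst.2] at this
          exact this
        exact Prod.ext h2 h3
    · intro x _
      rfl
  rw [hsum, Finset.sum_product, div_mul_div_comm, Finset.sum_mul_sum]
  push_cast
  rfl

theorem sum_range_mul_aux {M : Type} [AddCommMonoid M] (m n : ℕ) (F : ℕ → M) :
    ∑ x ∈ Finset.range (m * n), F x =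
      ∑ z ∈ Finset.range n, ∑ y ∈ Finset.range m, F (m * z + y) := by
  induction n with
  | zero => simp
  | succ n ih => rw [Nat.mul_succ, Finset.sum_range_add, ih, Finset.sum_range_succ]

/-- sums of an additive character over a complete residue system -/
theorem sum_e_linear {p : ℕ} (hp : 0 < p) {c : ℤ} (hc : ¬ (p : ℤ) ∣ c) :
    ∑ z ∈ Finset.range p, e ((c : ℝ) * (z : ℝ) / (p : ℝ)) = 0 := by
  have hp' : (p : ℝ) ≠ 0 := by exact_mod_cast hp.ne'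
  set w : ℂ := e ((c : ℝ) / (p : ℝ)) with hw
  have hpow : ∀ z : ℕ, e ((c : ℝ) * (z : ℝ) / (p : ℝ)) = w ^ z := by
    intro z
    induction z with
    | zero => simp [e_zero]
    | succ z ih =>
      rw [pow_succ, ← ih, hw, ← e_add]
      congr 1
      push_cast
      ring
  simp_rw [hpow]
  have hw1 : w ≠ 1 := by
    intro h
    rw [hw, e, Complex.exp_eq_one_iff] at h
    obtain ⟨m, hm⟩ := h
    have h2 : ((2 * Real.pi * ((c : ℝ) / (p : ℝ)) : ℝ) : ℂ) * Complex.I =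
        ((2 * Real.pi * (m : ℝ) : ℝ) : ℂ) * Complex.I := by
      rw [hm]
      push_cast
      ring
    have h3 := mul_right_cancel₀ Complex.I_ne_zero h2
    have h4 : 2 * Real.pi * ((c : ℝ) / (p : ℝ)) = 2 * Real.pi * (m : ℝ) := by exact_mod_cast h3
    have h5 : (c : ℝ) / (p : ℝ) = m := mul_left_cancel₀ (by positivity) h4
    rw [div_eq_iff hp'] at h5
    have h6 : c = m * p := by exact_mod_cast h5
    exact hc ⟨m, by rw [h6]; ring⟩
  have hwp : w ^ p = 1 := by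
    rw [← hpow p]
    have : (c : ℝ) * (p : ℝ) / (p : ℝ) = (c : ℝ) := by field_simp
    rw [this, e_int]
  have := mul_geom_sum w p
  rw [hwp, sub_self] at this
  rcases mul_eq_zero.1 this with h | h
  · exact absurd (sub_eq_zero.1 h) hw1
  · exact h

/-- few roots of the derivative modulo `p` -/
theorem card_critical_le (g : ℤ[X]) (k Δ : ℕ) (hg : g.natDegree ≤ k)
    (hΔ : ∀ t : ℕ, (∀ j : ℕ, 1 ≤ j → (t : ℤ) ∣ g.coeff j) → t ≤ Δ) (p : ℕ) (hp : p.Prime)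
    (hkp : k < p) (hΔp : Δ < p) :
    ((Finset.range p).filter (fun y : ℕ => (p : ℤ) ∣ (derivative g).eval (y : ℤ))).card ≤ k := by
  have : Fact p.Prime := ⟨hp⟩
  set G : (ZMod p)[X] := (derivative g).map (Int.castRingHom (ZMod p)) with hG
  have hG0 : G ≠ 0 := by
    intro h0
    have h1 : p ≤ Δ := by
      refine hΔ p fun j hj => ?_
      rcases Nat.lt_or_ge k j with hkj | hkj
      · rw [coeff_eq_zero_of_natDegree_lt (lt_of_le_of_lt hg hkj)]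
        exact dvd_zero _
      · obtain ⟨i, rfl⟩ : ∃ i, j = i + 1 := ⟨j - 1, by omega⟩
        have h2 : G.coeff i = 0 := by rw [h0, coeff_zero]
        rw [hG, coeff_map, coeff_derivative, eq_intCast, ZMod.intCast_zmod_eq_zero_iff_dvd] at h2
        have hpz : Prime (p : ℤ) := Nat.prime_iff_prime_int.1 hp
        rcases hpz.dvd_or_dvd h2 with h3 | h3
        · exact h3
        · exfalso
          have h4 : (p : ℤ) ∣ ((i + 1 : ℕ) : ℤ) := by exact_mod_cast h3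
          have h5 : p ∣ i + 1 := by exact_mod_cast h4
          have := Nat.le_of_dvd (by omega) h5
          omega
    omega
  have hdeg : G.natDegree ≤ k := by
    refine (natDegree_map_le).trans ((natDegree_derivative_le g).trans ?_)
    omega
  have hinj : ((Finset.range p).filter
      (fun y : ℕ => (p : ℤ) ∣ (derivative g).eval (y : ℤ))).card ≤ G.roots.toFinset.card := by
    refine Finset.card_le_card_of_injOn (fun y : ℕ => (y : ZMod p)) ?_ ?_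
    · intro y hy
      rw [Finset.mem_coe, Finset.mem_filter] at hy
      rw [Finset.mem_coe, Multiset.mem_toFinset, mem_roots hG0, IsRoot.def, hG]
      have h1 : eval ((y : ℕ) : ZMod p) (map (Int.castRingHom (ZMod p)) (derivative g)) =
          (((derivative g).eval (y : ℤ) : ℤ) : ZMod p) := by
        simp
      rw [h1, ZMod.intCast_zmod_eq_zero_iff_dvd]
      exact hy.2
    · intro x hx y hy hxy
      rw [Finset.mem_coe, Finset.mem_filter, Finset.mem_range] at hx hy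
      have h1 : x ≡ y [MOD p] := (ZMod.natCast_eq_natCast_iff x y p).1 hxy
      exact Nat.ModEq.eq_of_lt_of_lt h1 hx.1 hy.1
  calc _ ≤ G.roots.toFinset.card := hinj
    _ ≤ Multiset.card G.roots := Multiset.toFinset_card_le _
    _ ≤ G.natDegree := card_roots' G
    _ ≤ k := hdeg

/-- Complete sums modulo higher prime powers: only critical classes contribute. -/
theorem cSum_prime_pow (g : ℤ[X]) (k Δ : ℕ) (hg : g.natDegree ≤ k)
    (hΔ : ∀ t : ℕ, (∀ j : ℕ, 1 ≤ j → (t : ℤ) ∣ g.coeff j) → t ≤ Δ) (p : ℕ) (hp : p.Prime)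
    (hkp : k < p) (hΔp : Δ < p) (j : ℕ) (hj : 2 ≤ j) (a : ℤ) (ha : IsCoprime a (p : ℤ)) :
    ‖cSum g a (p ^ j)‖ ≤ (k : ℝ) / p := by
  have hp0 : 0 < p := hp.pos
  have hpR : (0 : ℝ) < p := by exact_mod_cast hp0
  obtain ⟨i, rfl⟩ : ∃ i, j = i + 2 := ⟨j - 2, by omega⟩
  set m : ℕ := p ^ (i + 1) with hm
  have hm0 : 0 < m := pow_pos hp0 _
  have hpm : p ^ (i + 2) = m * p := by rw [hm, ← pow_succ]
  -- the inner sums
  have hinner : ∀ y : ℕ, ∑ z ∈ Finset.range p,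
      e ((a : ℝ) * ((g.eval ((m * z + y : ℕ) : ℤ) : ℤ) : ℝ) / ((p ^ (i + 2) : ℕ) : ℝ)) =
      e ((a : ℝ) * ((g.eval (y : ℤ) : ℤ) : ℝ) / ((p ^ (i + 2) : ℕ) : ℝ)) *
        ∑ z ∈ Finset.range p, e (((a * (derivative g).eval (y : ℤ) : ℤ) : ℝ) * (z : ℝ) / (p : ℝ)) := by
    intro y
    rw [Finset.mul_sum]
    refine Finset.sum_congr rfl fun z _ => ?_
    obtain ⟨c, hc⟩ := binomExpansion g (y : ℤ) ((m * z : ℕ) : ℤ)
    have h1 : ((m * z + y : ℕ) : ℤ) = (y : ℤ) + ((m * z : ℕ) : ℤ) := by push_cast; ring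
    rw [h1, hc, ← e_add]
    have hmR : (m : ℝ) ≠ 0 := by exact_mod_cast hm0.ne'
    have hm2 : ((m : ℤ)) ^ 2 = ((p ^ (i + 2) : ℕ) : ℤ) * ((p ^ i : ℕ) : ℤ) := by
      rw [hm]
      push_cast
      ring
    have hm2R : ((m : ℝ)) ^ 2 = ((p ^ (i + 2) : ℕ) : ℝ) * ((p ^ i : ℕ) : ℝ) := by
      exact_mod_cast hm2
    have hPR : ((p ^ (i + 2) : ℕ) : ℝ) = (m : ℝ) * p := by
      rw [hpm]
      push_cast
      ring
    have hPR0 : ((p ^ (i + 2) : ℕ) : ℝ) ≠ 0 := by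
      rw [hPR]
      positivity
    have hkey : (a : ℝ) * ((((g.eval (y : ℤ)) + (derivative g).eval (y : ℤ) * ((m * z : ℕ) : ℤ) +
          c * ((m * z : ℕ) : ℤ) ^ 2 : ℤ)) : ℝ) / ((p ^ (i + 2) : ℕ) : ℝ) =
        ((a : ℝ) * ((g.eval (y : ℤ) : ℤ) : ℝ) / ((p ^ (i + 2) : ℕ) : ℝ) +
          ((a * (derivative g).eval (y : ℤ) : ℤ) : ℝ) * (z : ℝ) / (p : ℝ)) +
          ((a * c * ((z : ℤ) ^ 2) * ((p ^ i : ℕ) : ℤ) : ℤ) : ℝ) := by
      have e3 : (c : ℝ) * (((m : ℝ)) * (z : ℝ)) ^ 2 =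
          c * (z : ℝ) ^ 2 * ((p ^ i : ℕ) : ℝ) * ((p ^ (i + 2) : ℕ) : ℝ) := by
        rw [mul_pow, hm2R]
        ring
      have e4 : ((a * (derivative g).eval (y : ℤ) : ℤ) : ℝ) * (z : ℝ) / (p : ℝ) =
          ((a * (derivative g).eval (y : ℤ) : ℤ) : ℝ) * ((m : ℝ) * (z : ℝ)) /
            ((p ^ (i + 2) : ℕ) : ℝ) := by
        rw [hPR]
        field_simp
      rw [e4, eq_comm, ← add_div, div_add' _ _ _ hPR0, div_left_inj' hPR0]
      generalize ((p ^ (i + 2) : ℕ) : ℝ) = P at *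
      push_cast at e3 ⊢
      linear_combination (-(a : ℝ)) * e3
    rw [hkey, e_add_int]
  have hbound : ∀ y : ℕ, ‖∑ z ∈ Finset.range p,
      e ((a : ℝ) * ((g.eval ((m * z + y : ℕ) : ℤ) : ℤ) : ℝ) / ((p ^ (i + 2) : ℕ) : ℝ))‖ ≤
      if (p : ℤ) ∣ (derivative g).eval (y : ℤ) then (p : ℝ) else 0 := by
    intro y
    rw [hinner, norm_mul, norm_e, one_mul]
    split_ifs with h
    · refine (norm_sum_le _ _).trans ?_
      simp [norm_e]
    · rw [sum_e_linear hp0]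
      · simp
      · intro h2
        have hpz : Prime (p : ℤ) := Nat.prime_iff_prime_int.1 hp
        rcases hpz.dvd_or_dvd h2 with h3 | h3
        · have h4 : IsUnit (p : ℤ) := by
            have := ha.symm
            exact (isCoprime_comm.1 this).isUnit_of_dvd' h3 dvd_rfl
          exact hpz.not_isUnit h4
        · exact h h3
  have hcount : ∑ y ∈ Finset.range m,
      (if (p : ℤ) ∣ (derivative g).eval (y : ℤ) then (p : ℝ) else 0) ≤ (m : ℝ) * k := by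
    have hmp : m = p * p ^ i := by rw [hm, pow_succ, mul_comm]
    rw [hmp, sum_range_mul_aux]
    have h1 : ∀ z ∈ Finset.range (p ^ i), ∑ y ∈ Finset.range p,
        (if (p : ℤ) ∣ (derivative g).eval ((p * z + y : ℕ) : ℤ) then (p : ℝ) else 0) ≤ p * k := by
      intro z _
      have h2 : ∀ y ∈ Finset.range p,
          (if (p : ℤ) ∣ (derivative g).eval ((p * z + y : ℕ) : ℤ) then (p : ℝ) else 0) =
          if (p : ℤ) ∣ (derivative g).eval (y : ℤ) then (p : ℝ) else 0 := by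
        intro y _
        have h3 : (p : ℤ) ∣ (derivative g).eval ((p * z + y : ℕ) : ℤ) -
            (derivative g).eval (y : ℤ) := by
          refine Dvd.dvd.trans ?_ (sub_dvd_eval_sub _ _ _)
          exact ⟨z, by push_cast; ring⟩
        have h4 : ((p : ℤ) ∣ (derivative g).eval ((p * z + y : ℕ) : ℤ)) ↔
            (p : ℤ) ∣ (derivative g).eval (y : ℤ) := (dvd_iff_dvd_of_dvd_sub h3)
        simp only [h4]
      rw [Finset.sum_congr rfl h2, ← Finset.sum_filter, Finset.sum_const, nsmul_eq_mul, mul_comm]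
      refine mul_le_mul_of_nonneg_left ?_ hpR.le
      exact_mod_cast card_critical_le g k Δ hg hΔ p hp hkp hΔp
    refine (Finset.sum_le_sum h1).trans (le_of_eq ?_)
    rw [Finset.sum_const, Finset.card_range, nsmul_eq_mul]
    push_cast
    ring
  unfold cSum
  rw [norm_div, Complex.norm_natCast]
  have hsum : ∑ x ∈ Finset.range (p ^ (i + 2)),
      e ((a : ℝ) * ((g.eval (x : ℤ) : ℤ) : ℝ) / ((p ^ (i + 2) : ℕ) : ℝ)) =
      ∑ y ∈ Finset.range m, ∑ z ∈ Finset.range p,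
      e ((a : ℝ) * ((g.eval ((m * z + y : ℕ) : ℤ) : ℤ) : ℝ) / ((p ^ (i + 2) : ℕ) : ℝ)) := by
    rw [Finset.sum_comm]
    have h1 : Finset.range (p ^ (i + 2)) = Finset.range (m * p) := by rw [hpm]
    rw [h1]
    exact sum_range_mul_aux m p (fun x : ℕ =>
      e ((a : ℝ) * ((g.eval (x : ℤ) : ℤ) : ℝ) / ((p ^ (i + 2) : ℕ) : ℝ)))
  have hnorm : ‖∑ x ∈ Finset.range (p ^ (i + 2)),
      e ((a : ℝ) * ((g.eval (x : ℤ) : ℤ) : ℝ) / ((p ^ (i + 2) : ℕ) : ℝ))‖ ≤ (m : ℝ) * k := by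
    rw [hsum]
    exact (norm_sum_le _ _).trans ((Finset.sum_le_sum fun y _ => hbound y).trans hcount)
  have hPR : ((p ^ (i + 2) : ℕ) : ℝ) = (m : ℝ) * p := by
    rw [hpm]
    push_cast
    ring
  have hmR : (0 : ℝ) < m := by exact_mod_cast hm0
  have hPpos : (0 : ℝ) < ((p ^ (i + 2) : ℕ) : ℝ) := by
    rw [hPR]
    positivity
  rw [div_le_div_iff₀ hPpos hpR]
  calc _ ≤ ((m : ℝ) * k) * p := mul_le_mul_of_nonneg_right hnorm hpR.le
    _ = (k : ℝ) * ((p ^ (i + 2) : ℕ) : ℝ) := by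
      rw [hPR]
      ring

end Vale.Agent.P042.UB
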