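import Vale.Agent.Lib.P042.UB.Weyl.Main

set_option autoImplicit false

namespace Vale.Agent.P042.UB

open Polynomial

theorem major_nint_dvd (m : ℤ) (q : ℕ) (hq : 1 ≤ q) (h : nint ((m : ℝ) / q) < 1 / q) :
    (q : ℤ) ∣ m := by
  have hq0 : (0 : ℝ) < q := by exact_mod_cast hq
  rw [nint] at h
  set z := round ((m : ℝ) / q) with hz
  have h1 : (m : ℝ) / q - z = (m - q * z) / q := by
    field_simp
  rw [h1, abs_div, abs_of_pos hq0, div_lt_div_iff_of_pos_right hq0] at h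
  have h2 : |m - q * z| < 1 := by
    have h3 : ((|m - q * z| : ℤ) : ℝ) < 1 := by
      push_cast
      exact h
    exact_mod_cast h3
  rw [Int.abs_lt_one_iff] at h2
  exact ⟨z, by linarith⟩

theorem major_sum_period (f : ℕ → ℂ) (q : ℕ) (hf : ∀ n, f (n + q) = f n) (R : ℕ) :
    ∑ n ∈ Finset.Icc 1 (q * R), f n = R * ∑ x ∈ Finset.range q, f x := by
  have hf2 : ∀ R n : ℕ, f (q * R + n) = f n := by
    intro R
    induction R with
    | zero => intro n; simp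
    | succ R ih =>
      intro n
      have : q * (R + 1) + n = (q * R + n) + q := by ring
      rw [this, hf, ih]
  have h1 : ∀ R : ℕ, ∑ n ∈ Finset.range (q * R), f n = R * ∑ x ∈ Finset.range q, f x := by
    intro R
    induction R with
    | zero => simp
    | succ R ih =>
      have : q * (R + 1) = q * R + q := by ring
      rw [this, Finset.sum_range_add, ih]
      have h2 : ∑ x ∈ Finset.range q, f (q * R + x) = ∑ x ∈ Finset.range q, f x :=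
        Finset.sum_congr rfl (fun x _ => hf2 R x)
      rw [h2]
      push_cast
      ring
  rw [← h1]
  have h3 : Finset.Icc 1 (q * R) = Finset.Ico (0 + 1) (q * R + 1) := by
    ext x
    simp only [Finset.mem_Icc, Finset.mem_Ico]
    omega
  rw [h3, ← Finset.sum_Ico_add' f 0 (q * R) 1]
  have h4 : ∑ x ∈ Finset.Ico 0 (q * R), f (x + 1) = ∑ x ∈ Finset.range (q * R), f (x + 1) := by
    rw [Finset.range_eq_Ico]
  rw [h4]
  have h5 := Finset.sum_range_succ f (q * R)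
  have h6 := Finset.sum_range_succ' f (q * R)
  rw [h5] at h6
  have h7 : f (q * R) = f 0 := by
    have := hf2 R 0
    simpa using this
  rw [h7] at h6
  exact (add_right_cancel h6).symm

theorem major_eval_map (g : ℤ[X]) (n : ℕ) (c : ℝ) :
    (C c * g.map (Int.castRingHom ℝ)).eval (n : ℝ) = c * ((g.eval (n : ℤ) : ℤ) : ℝ) := by
  rw [eval_mul, eval_C]
  congr 1
  have := Polynomial.eval_intCast_map (Int.castRingHom ℝ) g (n : ℤ)
  simpa only [Int.cast_natCast, eq_intCast] using this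

theorem major_coeff_map (g : ℤ[X]) (j : ℕ) (c : ℝ) :
    (C c * g.map (Int.castRingHom ℝ)).coeff j = c * (g.coeff j : ℝ) := by
  rw [coeff_C_mul, coeff_map]
  simp

theorem major_natDegree_map (g : ℤ[X]) (c : ℝ) (k : ℕ) (h : g.natDegree ≤ k) :
    (C c * g.map (Int.castRingHom ℝ)).natDegree ≤ k := by
  refine (natDegree_C_mul_le _ _).trans ?_
  exact (natDegree_map_le).trans h

theorem major_period (g : ℤ[X]) (a : ℤ) (q : ℕ) (hq : 1 ≤ q) (n : ℕ) :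
    e ((a : ℝ) * ((g.eval ((n + q : ℕ) : ℤ) : ℤ) : ℝ) / (q : ℝ)) =
      e ((a : ℝ) * ((g.eval (n : ℤ) : ℤ) : ℝ) / (q : ℝ)) := by
  have hq0 : (q : ℝ) ≠ 0 := by
    have : (0 : ℝ) < q := by exact_mod_cast hq
    exact this.ne'
  have h1 : ((n + q : ℕ) : ℤ) - (n : ℤ) ∣ g.eval ((n + q : ℕ) : ℤ) - g.eval (n : ℤ) :=
    Polynomial.sub_dvd_eval_sub _ _ _
  have h2 : ((n + q : ℕ) : ℤ) - (n : ℤ) = q := by push_cast; ring
  rw [h2] at h1
  obtain ⟨z, hz⟩ := h1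
  have h3 : g.eval ((n + q : ℕ) : ℤ) = g.eval (n : ℤ) + q * z := by linarith
  rw [h3]
  have h4 : (a : ℝ) * (((g.eval (n : ℤ) + q * z : ℤ)) : ℝ) / (q : ℝ) =
      (a : ℝ) * ((g.eval (n : ℤ) : ℤ) : ℝ) / (q : ℝ) + ((a * z : ℤ) : ℝ) := by
    push_cast
    field_simp
  rw [h4, e_add_int]

theorem major_norm_cSum_le (g : ℤ[X]) (a : ℤ) (q : ℕ) : ‖cSum g a q‖ ≤ 1 := by
  rw [cSum, norm_div, Complex.norm_natCast]
  rcases Nat.eq_zero_or_pos q with h | h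
  · subst h; simp
  · rw [div_le_one (by exact_mod_cast h)]
    refine (norm_sum_le _ _).trans ?_
    simp [norm_e]

/-- the main step for complete sums, at a fixed level `δ` -/
theorem major_complete_aux (k : ℕ) (C₀ : ℕ)
    (hC : ∀ (g : ℝ[X]) (M : ℕ) (δ : ℝ),
      g.natDegree ≤ k → 0 < δ → δ ≤ 1 / 2 → 1 ≤ M →
      δ * M ≤ ‖∑ n ∈ Finset.Icc 1 M, e (g.eval (n : ℝ))‖ →
      ∃ q : ℕ, 1 ≤ q ∧ (q : ℝ) ≤ (1 / δ) ^ C₀ ∧
        ∀ j : ℕ, 1 ≤ j → j ≤ k → nint ((q : ℝ) * g.coeff j) ≤ (1 / δ) ^ C₀ / (M : ℝ) ^ j)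
    (g : ℤ[X]) (Δ : ℕ) (hg : g.natDegree ≤ k)
    (hΔ : ∀ t : ℕ, (∀ j : ℕ, 1 ≤ j → (t : ℤ) ∣ g.coeff j) → t ≤ Δ)
    (q : ℕ) (a : ℤ) (hq : 1 ≤ q) (ha : IsCoprime a (q : ℤ)) (δ : ℝ) (hδ : 0 < δ)
    (hδ1 : δ ≤ 1 / 2) (hS : δ ≤ ‖cSum g a q‖) : (q : ℝ) ≤ (1 / δ) ^ C₀ * Δ := by
  have hq0 : (0 : ℝ) < q := by exact_mod_cast hq
  obtain ⟨R, hR⟩ := exists_nat_gt ((1 / δ) ^ C₀)
  have h1δ : 0 < (1 / δ) ^ C₀ := by positivity
  have hR0 : (0 : ℝ) < R := h1δ.trans hR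
  have hR1 : 1 ≤ R := by exact_mod_cast hR0
  have hsum : ∑ n ∈ Finset.Icc 1 (q * R),
      e ((C ((a : ℝ) / q) * g.map (Int.castRingHom ℝ)).eval (n : ℝ)) =
      (R : ℂ) * ((q : ℂ) * cSum g a q) := by
    have h1 : ∀ n ∈ Finset.Icc 1 (q * R),
        e ((C ((a : ℝ) / q) * g.map (Int.castRingHom ℝ)).eval (n : ℝ)) =
        (fun n : ℕ => e ((a : ℝ) * ((g.eval (n : ℤ) : ℤ) : ℝ) / (q : ℝ))) n := by
      intro n _
      rw [major_eval_map]
      simp only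
      congr 1
      ring
    rw [Finset.sum_congr rfl h1, major_sum_period _ q (fun n => major_period g a q hq n) R]
    congr 1
    rw [cSum]
    have : (q : ℂ) ≠ 0 := by exact_mod_cast hq0.ne'
    field_simp
  have hM : 1 ≤ q * R := Nat.one_le_iff_ne_zero.mpr (by positivity)
  obtain ⟨q', hq'1, hq'2, hq'3⟩ := hC (C ((a : ℝ) / q) * g.map (Int.castRingHom ℝ)) (q * R) δ
    (major_natDegree_map g _ k hg) hδ hδ1 hM (by
      rw [hsum, norm_mul, norm_mul, Complex.norm_natCast, Complex.norm_natCast]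
      push_cast
      calc δ * (q * R) = R * (q * δ) := by ring
        _ ≤ R * (q * ‖cSum g a q‖) := by gcongr)
  have hdvd : ∀ j : ℕ, 1 ≤ j → (q : ℤ) ∣ q' * g.coeff j := by
    intro j hj
    rcases le_or_gt j k with hjk | hjk
    · have h1 := hq'3 j hj hjk
      rw [major_coeff_map] at h1
      have h2 : (q' : ℝ) * ((a : ℝ) / q * (g.coeff j : ℝ)) =
          ((q' * g.coeff j * a : ℤ) : ℝ) / q := by
        push_cast
        ring
      rw [h2] at h1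
      have h3 : nint (((q' * g.coeff j * a : ℤ) : ℝ) / q) < 1 / q := by
        refine h1.trans_lt ?_
        rw [div_lt_div_iff₀ (by positivity) hq0, one_mul]
        have h4 : (1 : ℝ) ≤ ((q * R : ℕ) : ℝ) := by exact_mod_cast hM
        calc (1 / δ) ^ C₀ * q < R * q := by gcongr
          _ = ((q * R : ℕ) : ℝ) := by push_cast; ring
          _ = ((q * R : ℕ) : ℝ) ^ 1 := by ring
          _ ≤ ((q * R : ℕ) : ℝ) ^ j := pow_le_pow_right₀ h4 hj
      have h5 := major_nint_dvd _ q hq h3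
      exact (ha.symm).dvd_of_dvd_mul_right h5
    · rw [coeff_eq_zero_of_natDegree_lt (by omega)]
      simp
  have ht : q / Nat.gcd q q' ≤ Δ := by
    apply hΔ
    intro j hj
    have hd0 : 0 < Nat.gcd q q' := Nat.gcd_pos_of_pos_left _ (by omega)
    have h1 := hdvd j hj
    have hcop : Nat.Coprime (q / Nat.gcd q q') (q' / Nat.gcd q q') :=
      Nat.coprime_div_gcd_div_gcd hd0
    have hu : q = Nat.gcd q q' * (q / Nat.gcd q q') :=
      (Nat.mul_div_cancel' (Nat.gcd_dvd_left q q')).symm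
    have hv : q' = Nat.gcd q q' * (q' / Nat.gcd q q') :=
      (Nat.mul_div_cancel' (Nat.gcd_dvd_right q q')).symm
    generalize q / Nat.gcd q q' = u at *
    generalize q' / Nat.gcd q q' = v at *
    have h2 : ((Nat.gcd q q' : ℕ) : ℤ) * (u : ℤ) ∣ ((Nat.gcd q q' : ℕ) : ℤ) * ((v : ℤ) * g.coeff j) := by
      have e1 : ((Nat.gcd q q' : ℕ) : ℤ) * (u : ℤ) = (q : ℤ) := by exact_mod_cast hu.symm
      have e2 : ((Nat.gcd q q' : ℕ) : ℤ) * (v : ℤ) = (q' : ℤ) := by exact_mod_cast hv.symm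
      rw [← mul_assoc, e1, e2]
      exact h1
    have h3 : (u : ℤ) ∣ (v : ℤ) * g.coeff j :=
      (mul_dvd_mul_iff_left (by exact_mod_cast hd0.ne')).mp h2
    have h4 : IsCoprime (u : ℤ) (v : ℤ) := Nat.isCoprime_iff_coprime.mpr hcop
    exact h4.dvd_of_dvd_mul_left h3
  have hgcd : (Nat.gcd q q' : ℝ) ≤ (1 / δ) ^ C₀ := by
    refine le_trans ?_ hq'2
    exact_mod_cast Nat.gcd_le_right q (by omega : 0 < q')
  have hqq : q = Nat.gcd q q' * (q / Nat.gcd q q') := (Nat.mul_div_cancel' (Nat.gcd_dvd_left q q')).symm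
  calc (q : ℝ) = (Nat.gcd q q' : ℝ) * ((q / Nat.gcd q q' : ℕ) : ℝ) := by exact_mod_cast hqq
    _ ≤ (1 / δ) ^ C₀ * Δ := by
      gcongr

/-- Bound for complete sums with a power saving, uniform in the polynomial.

PROOF. Let `C₀` be the constant of `weyl_inverse k` and `δ = ‖cSum g a q‖ ≤ 1`. If `0 < δ ≤ 1/2`
apply `weyl_inverse` to the real polynomial `a g(x)/q` with `M = q R`, `R → ∞` (the sum over
`n ≤ qR` is `R` times the complete sum by periodicity, so its norm is `qRδ`). We get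
`q' ≤ (1/δ)^{C₀}` (depending on `R`) with `nint (q' a g_j/q) ≤ (1/δ)^{C₀}/(qR)^j` for
`1 ≤ j ≤ k`; as `nint` of a multiple of `1/q` is `0` or `≥ 1/q`, for `R` large
`q ∣ q' a g_j`, so `q ∣ q' g_j`, hence `t = q / gcd(q, q')` divides all `g_j`, `j ≥ 1`, and
`q ≤ q' t ≤ q' Δ ≤ (1/δ)^{C₀} Δ`. If `δ > 1/2` apply it with `δ' = 1/2`: `q ≤ 2^{C₀} Δ`. -/
theorem complete_bound (k : ℕ) (hk : 1 ≤ k) : ∃ C : ℕ, 1 ≤ C ∧ ∀ (g : ℤ[X]) (Δ : ℕ),
    g.natDegree ≤ k → (∀ t : ℕ, (∀ j : ℕ, 1 ≤ j → (t : ℤ) ∣ g.coeff j) → t ≤ Δ) →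
    ∀ (q : ℕ) (a : ℤ), 1 ≤ q → IsCoprime a (q : ℤ) →
      ‖cSum g a q‖ ^ C * (q : ℝ) ≤ 2 ^ C * (Δ : ℝ) := by
  obtain ⟨C₀, hC₀⟩ := weyl_inverse k hk
  refine ⟨max C₀ 1, le_max_right _ _, ?_⟩
  intro g Δ hg hΔ q a hq ha
  set D := max C₀ 1 with hD
  have hD1 : 1 ≤ D := le_max_right _ _
  have hD0 : C₀ ≤ D := le_max_left _ _
  have hΔ0 : (0 : ℝ) ≤ Δ := Nat.cast_nonneg _
  have h2D : (1 : ℝ) ≤ 2 ^ D := one_le_pow₀ (by norm_num)
  rcases eq_or_lt_of_le (norm_nonneg (cSum g a q)) with h0 | h0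
  · rw [← h0, zero_pow (by omega), zero_mul]
    positivity
  · rcases le_or_gt ‖cSum g a q‖ (1 / 2) with h1 | h1
    · have h2 := major_complete_aux k C₀ hC₀ g Δ hg hΔ q a hq ha _ h0 h1 le_rfl
      have h3 : (1 : ℝ) ≤ 1 / ‖cSum g a q‖ := by
        rw [le_div_iff₀ h0]
        linarith
      have h4 : (1 / ‖cSum g a q‖) ^ C₀ ≤ (1 / ‖cSum g a q‖) ^ D := pow_le_pow_right₀ h3 hD0
      calc ‖cSum g a q‖ ^ D * (q : ℝ)
          ≤ ‖cSum g a q‖ ^ D * ((1 / ‖cSum g a q‖) ^ D * Δ) := by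
            gcongr
            exact h2.trans (by gcongr)
        _ = Δ := by
            rw [← mul_assoc, ← mul_pow, mul_one_div_cancel h0.ne', one_pow, one_mul]
        _ ≤ 2 ^ D * (Δ : ℝ) := le_mul_of_one_le_left hΔ0 h2D
    · have h2 := major_complete_aux k C₀ hC₀ g Δ hg hΔ q a hq ha (1 / 2) (by norm_num) le_rfl h1.le
      have h3 : ‖cSum g a q‖ ^ D ≤ 1 := pow_le_one₀ h0.le (major_norm_cSum_le g a q)
      have h4 : (1 / (1 / 2 : ℝ)) ^ C₀ ≤ 2 ^ D := by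
        rw [one_div_one_div]
        exact pow_le_pow_right₀ (by norm_num) hD0
      calc ‖cSum g a q‖ ^ D * (q : ℝ) ≤ 1 * q := by gcongr
        _ = q := one_mul _
        _ ≤ _ := h2
        _ ≤ 2 ^ D * (Δ : ℝ) := by gcongr

/-- Major arc structure.

PROOF. `weyl_inverse` for the real polynomial `θ g` gives `q' ≤ (1/δ)^{C₀}` with
`q' θ g_j = z_j + ρ_j`, `z_j ∈ ℤ`, `|ρ_j| ≤ (1/δ)^{C₀}/M^j` for `1 ≤ j ≤ k`. Then
`g_i z_j - g_j z_i = g_j ρ_i - g_i ρ_j` is an integer of absolute value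
`≤ 2 B (1/δ)^{C₀}/M < 1` (if `C ≥ C₀ + 2`), so `g_i z_j = g_j z_i`. Let `z_k/g_k = u/v` in lowest
terms, `v ≥ 1`; then `z_j = g_j u/v` so `v ∣ g_j` for all `j ≥ 1`, so `v ≤ Δ`. From `j = k`:
`θ = u/(v q') + ρ_k/(q' g_k)`. Reduce `u/(v q') = a/q` to lowest terms: `q ≤ v q' ≤ Δ (1/δ)^{C₀}`
and `|θ - a/q| ≤ |ρ_k|/g_k`. -/
theorem major_arc (k : ℕ) (hk : 1 ≤ k) : ∃ C : ℕ, ∀ (g : ℤ[X]) (Δ B : ℕ),
    g.natDegree ≤ k → 0 < g.coeff k → (∀ j : ℕ, j ≤ k → |g.coeff j| ≤ (B : ℤ)) →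
    (∀ t : ℕ, (∀ j : ℕ, 1 ≤ j → (t : ℤ) ∣ g.coeff j) → t ≤ Δ) →
    ∀ (M : ℕ) (δ θ : ℝ), 0 < δ → δ ≤ 1 / 2 → 1 ≤ M → (B : ℝ) * (1 / δ) ^ C ≤ (M : ℝ) →
      δ ≤ ‖wSum g M θ‖ →
      ∃ (q : ℕ) (a : ℤ), 1 ≤ q ∧ IsCoprime a (q : ℤ) ∧ (q : ℝ) ≤ (Δ : ℝ) * (1 / δ) ^ C ∧
        |θ - (a : ℝ) / q| ≤ (1 / δ) ^ C / ((g.coeff k : ℝ) * (M : ℝ) ^ k) := by
  obtain ⟨C₀, hC₀⟩ := weyl_inverse k hk
  refine ⟨C₀ + 2, ?_⟩
  intro g Δ B hg hgk hB hΔ M δ θ hδ hδ1 hM hBM hS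
  have hM0 : (0 : ℝ) < M := by exact_mod_cast hM
  have hM1 : (1 : ℝ) ≤ M := by exact_mod_cast hM
  have hδi : 2 ≤ 1 / δ := by
    rw [le_div_iff₀ hδ]
    linarith
  have hδi1 : 1 ≤ 1 / δ := by linarith
  have hP : 0 < (1 / δ) ^ C₀ := by positivity
  have hP2 : (1 / δ) ^ C₀ ≤ (1 / δ) ^ (C₀ + 2) := pow_le_pow_right₀ hδi1 (by omega)
  have hgk0 : (0 : ℝ) < (g.coeff k : ℝ) := by exact_mod_cast hgk
  have hgk1 : (1 : ℝ) ≤ (g.coeff k : ℝ) := by exact_mod_cast hgk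
  have hBr : ∀ j : ℕ, j ≤ k → |(g.coeff j : ℝ)| ≤ B := by
    intro j hj
    have := hB j hj
    exact_mod_cast this
  have hB0 : (0 : ℝ) < B := by
    have := hBr k le_rfl
    rw [abs_of_pos hgk0] at this
    linarith
  obtain ⟨q', hq'1, hq'2, hq'3⟩ := hC₀ (C θ * g.map (Int.castRingHom ℝ)) M δ
    (major_natDegree_map g _ k hg) hδ hδ1 hM (by
      have h1 : ∑ n ∈ Finset.Icc 1 M, e ((C θ * g.map (Int.castRingHom ℝ)).eval (n : ℝ)) =
          ∑ n ∈ Finset.Icc 1 M, e (θ * ((g.eval (n : ℤ) : ℤ) : ℝ)) :=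
        Finset.sum_congr rfl (fun n _ => by rw [major_eval_map])
      rw [h1]
      rw [wSum, norm_div, Complex.norm_natCast, le_div_iff₀ hM0] at hS
      exact hS)
  have hq'0 : (0 : ℝ) < q' := by exact_mod_cast hq'1
  -- the approximations
  set z : ℕ → ℤ := fun j => round ((q' : ℝ) * (θ * (g.coeff j : ℝ))) with hz
  have hρ : ∀ j : ℕ, 1 ≤ j → j ≤ k →
      |(q' : ℝ) * (θ * (g.coeff j : ℝ)) - z j| ≤ (1 / δ) ^ C₀ / (M : ℝ) ^ j := by
    intro j h1 h2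
    have := hq'3 j h1 h2
    rw [major_coeff_map] at this
    exact this
  have hρ1 : ∀ j : ℕ, 1 ≤ j → j ≤ k →
      |(q' : ℝ) * (θ * (g.coeff j : ℝ)) - z j| ≤ (1 / δ) ^ C₀ / (M : ℝ) := by
    intro j h1 h2
    refine (hρ j h1 h2).trans ?_
    have h3 : (M : ℝ) ≤ (M : ℝ) ^ j := le_self_pow₀ hM1 (by omega)
    gcongr
  have hsmall : 2 * (B * ((1 / δ) ^ C₀ / (M : ℝ))) < 1 := by
    rw [← mul_div_assoc, ← mul_div_assoc, div_lt_one hM0]
    calc 2 * (B * (1 / δ) ^ C₀) < 4 * (B * (1 / δ) ^ C₀) := by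
          have : 0 < B * (1 / δ) ^ C₀ := by positivity
          linarith
      _ = B * ((1 / δ) ^ C₀ * 2 ^ 2) := by ring
      _ ≤ B * ((1 / δ) ^ C₀ * (1 / δ) ^ 2) := by gcongr
      _ = B * (1 / δ) ^ (C₀ + 2) := by rw [pow_add]
      _ ≤ M := hBM
  have hcross : ∀ j : ℕ, 1 ≤ j → j ≤ k → g.coeff k * z j = g.coeff j * z k := by
    intro j h1 h2
    have h3 : ((g.coeff k * z j - g.coeff j * z k : ℤ) : ℝ) =
        (g.coeff j : ℝ) * ((q' : ℝ) * (θ * (g.coeff k : ℝ)) - z k) -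
        (g.coeff k : ℝ) * ((q' : ℝ) * (θ * (g.coeff j : ℝ)) - z j) := by
      push_cast
      ring
    have h4 : |((g.coeff k * z j - g.coeff j * z k : ℤ) : ℝ)| < 1 := by
      rw [h3]
      refine (abs_sub _ _).trans_lt ?_
      rw [abs_mul, abs_mul]
      have e1 := hρ1 j h1 h2
      have e2 := hρ1 k hk le_rfl
      have e3 := hBr j h2
      have e4 := hBr k le_rfl
      calc |(g.coeff j : ℝ)| * |(q' : ℝ) * (θ * (g.coeff k : ℝ)) - z k| +
            |(g.coeff k : ℝ)| * |(q' : ℝ) * (θ * (g.coeff j : ℝ)) - z j|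
          ≤ B * ((1 / δ) ^ C₀ / (M : ℝ)) + B * ((1 / δ) ^ C₀ / (M : ℝ)) := by gcongr
        _ = 2 * (B * ((1 / δ) ^ C₀ / (M : ℝ))) := by ring
        _ < 1 := hsmall
    have h5 : |g.coeff k * z j - g.coeff j * z k| < 1 := by exact_mod_cast h4
    rw [Int.abs_lt_one_iff] at h5
    linarith
  -- `z k / g k = u / v` in lowest terms
  set r : ℚ := (z k : ℚ) / (g.coeff k : ℚ) with hr
  have hgkq : (g.coeff k : ℚ) ≠ 0 := by exact_mod_cast hgk.ne'
  have hrv : (r.num : ℚ) * (g.coeff k : ℚ) = (r.den : ℚ) * (z k : ℚ) := by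
    have h1 : r * r.den = r.num := Rat.mul_den_eq_num r
    have h2 : r * (g.coeff k : ℚ) = z k := by
      rw [hr]
      field_simp
    calc (r.num : ℚ) * (g.coeff k : ℚ) = (r * r.den) * (g.coeff k : ℚ) := by rw [h1]
      _ = r.den * (r * (g.coeff k : ℚ)) := by ring
      _ = _ := by rw [h2]
  have hrv' : r.num * g.coeff k = (r.den : ℤ) * z k := by exact_mod_cast hrv
  have hvdvd : ∀ j : ℕ, 1 ≤ j → (r.den : ℤ) ∣ g.coeff j := by
    intro j h1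
    rcases le_or_gt j k with hjk | hjk
    · have h2 := hcross j h1 hjk
      have h3 : g.coeff j * r.num = (r.den : ℤ) * z j := by
        have h4 : g.coeff k * (g.coeff j * r.num) = g.coeff k * ((r.den : ℤ) * z j) := by
          calc g.coeff k * (g.coeff j * r.num) = g.coeff j * (r.num * g.coeff k) := by ring
            _ = g.coeff j * ((r.den : ℤ) * z k) := by rw [hrv']
            _ = r.den * (g.coeff j * z k) := by ring
            _ = r.den * (g.coeff k * z j) := by rw [h2]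
            _ = _ := by ring
        exact mul_left_cancel₀ hgk.ne' h4
      have h5 : IsCoprime (r.den : ℤ) r.num := by
        have := r.reduced
        rw [Int.isCoprime_iff_nat_coprime]
        simpa using this.symm
      exact h5.dvd_of_dvd_mul_right ⟨z j, h3⟩
    · rw [coeff_eq_zero_of_natDegree_lt (by omega)]
      simp
  have hvΔ : r.den ≤ Δ := hΔ _ hvdvd
  -- reduce
  set s : ℚ := r / (q' : ℚ) with hs
  have hsden : s.den ≤ r.den * q' := by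
    have h1 : s.den ∣ r.den * ((q' : ℚ)⁻¹).den := by
      rw [hs, div_eq_mul_inv]
      exact Rat.mul_den_dvd r ((q' : ℚ)⁻¹)
    rw [Rat.inv_natCast_den_of_pos (by omega)] at h1
    exact Nat.le_of_dvd (Nat.mul_pos r.den_pos (by omega)) h1
  refine ⟨s.den, s.num, s.den_pos, ?_, ?_, ?_⟩
  · have := s.reduced
    rw [Int.isCoprime_iff_nat_coprime]
    simpa using this
  · calc (s.den : ℝ) ≤ ((r.den * q' : ℕ) : ℝ) := by exact_mod_cast hsden
      _ = (r.den : ℝ) * q' := by push_cast; ring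
      _ ≤ (Δ : ℝ) * (1 / δ) ^ (C₀ + 2) := by
        have h1 : (r.den : ℝ) ≤ Δ := by exact_mod_cast hvΔ
        have h2 := hq'2.trans hP2
        gcongr
  · have h1 : ((s.num : ℝ) / (s.den : ℝ)) = (z k : ℝ) / (g.coeff k : ℝ) / q' := by
      have h2 : ((s : ℚ) : ℝ) = (s.num : ℝ) / (s.den : ℝ) := Rat.cast_def s
      rw [← h2, hs, hr]
      push_cast
      ring
    rw [h1]
    have h3 : θ - (z k : ℝ) / (g.coeff k : ℝ) / q' =
        ((q' : ℝ) * (θ * (g.coeff k : ℝ)) - z k) / ((g.coeff k : ℝ) * q') := by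
      field_simp
    rw [h3, abs_div, abs_of_pos (by positivity : (0 : ℝ) < (g.coeff k : ℝ) * q')]
    have h4 := hρ k hk le_rfl
    have h5 : (1 : ℝ) ≤ q' := by exact_mod_cast hq'1
    calc |(q' : ℝ) * (θ * (g.coeff k : ℝ)) - z k| / ((g.coeff k : ℝ) * q')
        ≤ ((1 / δ) ^ C₀ / (M : ℝ) ^ k) / ((g.coeff k : ℝ) * 1) := by gcongr
      _ = (1 / δ) ^ C₀ / ((g.coeff k : ℝ) * (M : ℝ) ^ k) := by
          field_simp
      _ ≤ (1 / δ) ^ (C₀ + 2) / ((g.coeff k : ℝ) * (M : ℝ) ^ k) := by gcongr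

end Vale.Agent.P042.UB
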