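import Vale.Agent.Lib.P042.UB.CSum
import Vale.Agent.Lib.P042.UB.Major
import Vale.Agent.Lib.P042.UB.Weil.Main

set_option autoImplicit false

namespace Vale.Agent.P042.UB

open Polynomial

theorem om_nonneg (C c : ℝ) (hC : 0 ≤ C) (p j : ℕ) : 0 ≤ om C c p j := by
  unfold om
  refine le_min zero_le_one (le_min (mul_nonneg hC (Real.rpow_nonneg (Nat.cast_nonneg _) _)) ?_)
  split_ifs
  · exact div_nonneg hC (Real.sqrt_nonneg _)
  · exact div_nonneg hC (Nat.cast_nonneg _)

theorem om_le_one (C c : ℝ) (p j : ℕ) : om C c p j ≤ 1 := min_le_left _ _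

theorem wt_nonneg (C c : ℝ) (hC : 0 ≤ C) (q : ℕ) : 0 ≤ wt C c q := by
  unfold wt Finsupp.prod
  exact Finset.prod_nonneg fun p _ => om_nonneg C c hC p _

theorem wt_le_one (C c : ℝ) (hC : 0 ≤ C) (q : ℕ) : wt C c q ≤ 1 := by
  unfold wt Finsupp.prod
  exact Finset.prod_le_one (fun p _ => om_nonneg C c hC p _) fun p _ => om_le_one C c p _

theorem wt_mul (C c : ℝ) (q₁ q₂ : ℕ) (hc : q₁.Coprime q₂) :
    wt C c (q₁ * q₂) = wt C c q₁ * wt C c q₂ := by
  unfold wt
  rw [Nat.factorization_mul_of_coprime hc]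
  exact Finsupp.prod_add_index_of_disjoint (Nat.Coprime.disjoint_primeFactors hc) _

theorem wt_prime_pow (C c : ℝ) (p j : ℕ) (hp : p.Prime) (hj : 0 < j) :
    wt C c (p ^ j) = om C c p j := by
  unfold wt
  rw [hp.factorization_pow, Finsupp.prod, Finsupp.support_single _ hj.ne',
    Finset.prod_singleton, Finsupp.single_eq_same]

theorem wt_one (C c : ℝ) : wt C c 1 = 1 := by
  unfold wt
  simp

/-- The complete sum modulo a prime as a character sum over `ZMod p`. -/
theorem cSum_prime_eq (g : ℤ[X]) (p : ℕ) [Fact p.Prime] (a : ℤ) :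
    cSum g a p = (∑ x : ZMod p, (AddChar.mulShift (ZMod.stdAddChar (N := p)) (a : ZMod p))
      ((g.map (Int.castRingHom (ZMod p))).eval x)) / (p : ℂ) := by
  unfold cSum
  congr 1
  have hp : 0 < p := (Fact.out : p.Prime).pos
  refine Finset.sum_nbij' (fun x => (x : ZMod p)) (fun x => x.val) ?_ ?_ ?_ ?_ ?_
  · intro x _; exact Finset.mem_univ _
  · intro x _; exact Finset.mem_range.2 (ZMod.val_lt x)
  · intro x hx; exact ZMod.val_cast_of_lt (Finset.mem_range.1 hx)
  · intro x _; exact ZMod.natCast_zmod_val x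
  · intro x _
    rw [AddChar.mulShift_apply]
    have h1 : (g.map (Int.castRingHom (ZMod p))).eval ((x : ℕ) : ZMod p) =
        ((g.eval (x : ℤ) : ℤ) : ZMod p) := by
      rw [eval_map, eval₂_at_natCast]
      simp
    have h2 : ((a : ℤ) : ZMod p) * (((g.eval (x : ℤ) : ℤ)) : ZMod p) =
        ((a * g.eval (x : ℤ) : ℤ) : ZMod p) := by push_cast; rfl
    rw [h1, h2, ZMod.stdAddChar_coe, e]
    congr 1
    push_cast
    ring

theorem norm_cSum_prime_le (g : ℤ[X]) (k Δ : ℕ) (hg : g.natDegree ≤ k)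
    (hΔ : ∀ t : ℕ, (∀ j : ℕ, 1 ≤ j → (t : ℤ) ∣ g.coeff j) → t ≤ Δ) (p : ℕ) (hp : p.Prime)
    (hkp : k < p) (hΔp : Δ < p) (a : ℤ) (ha : IsCoprime a (p : ℤ)) :
    ‖cSum g a p‖ ≤ (k : ℝ) / Real.sqrt p := by
  have : Fact p.Prime := ⟨hp⟩
  have hp0 : (0:ℝ) < p := by exact_mod_cast hp.pos
  set f := g.map (Int.castRingHom (ZMod p)) with hf
  have hf1 : 1 ≤ f.natDegree := by
    by_contra hcon
    have h0 : f.natDegree = 0 := by omega
    have : p ≤ Δ := by
      apply hΔ p
      intro j hj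
      have h1 : f.coeff j = 0 := coeff_eq_zero_of_natDegree_lt (by omega)
      rw [hf, coeff_map] at h1
      exact (ZMod.intCast_zmod_eq_zero_iff_dvd _ _).1 (by simpa using h1)
    omega
  have hfk : f.natDegree ≤ k := (natDegree_map_le).trans hg
  have hane : ((a : ℤ) : ZMod p) ≠ 0 := by
    intro h
    have h1 := (ZMod.intCast_zmod_eq_zero_iff_dvd a p).1 h
    have h2 := ha.isUnit_of_dvd' h1 dvd_rfl
    rw [Int.isUnit_iff] at h2
    have := hp.one_lt
    omega
  have hψ : AddChar.mulShift (ZMod.stdAddChar (N := p)) (a : ZMod p) ≠ 1 :=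
    ZMod.isPrimitive_stdAddChar p hane
  have hw := weil_bound p _ hψ f hf1 (by omega)
  rw [cSum_prime_eq, norm_div, Complex.norm_natCast, div_le_div_iff₀ hp0 (Real.sqrt_pos.2 hp0)]
  calc _ ≤ ((f.natDegree : ℝ) - 1) * Real.sqrt p * Real.sqrt p := by gcongr
    _ = ((f.natDegree : ℝ) - 1) * p := by
        rw [mul_assoc, Real.mul_self_sqrt hp0.le]
    _ ≤ k * p := by
        gcongr
        have : (f.natDegree : ℝ) ≤ k := by exact_mod_cast hfk
        linarith

/-- All complete sums of the family are bounded by the multiplicative weight `wt`.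

PROOF. `c = 1/C₀` with `C₀` from `complete_bound k`, and
`C = max (2 Δ) (max k …)`, at least `p₀ = max k Δ` etc. By `cSum_mul` and `wt_mul` (induction
`Nat.recOnPosPrimePosCoprime`) it is enough to treat `q = p^j`, `j ≥ 1`:
`‖cSum‖ ≤ 1`; `‖cSum‖ ≤ 2 Δ^{1/C₀} (p^j)^{-1/C₀} ≤ C p^{-c j}` by `complete_bound`;
for `j ≥ 2`: `‖cSum‖ ≤ k/p` if `p > max k Δ`, and `C/p ≥ 1` otherwise;
for `j = 1`: if `p > max k Δ` the reduction of `g = H d` mod `p` has degree `≥ 1` (otherwise
`p ∣ g_j` for all `j ≥ 1`, `p ≤ Δ`) and `≤ k < p`, and `weil_bound` (with the additive character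
`x ↦ e(a x / p)` of `ZMod p`, e.g. `ZMod.stdAddChar` or `AddChar.zmod`) gives
`‖cSum‖ ≤ (k-1)/√p`; if `p ≤ max k Δ` then `C/√p ≥ 1`. -/
theorem cSum_le_wt {k : ℕ} (hk : 1 ≤ k) (F : AuxFamily k) :
    ∃ C c : ℝ, 1 ≤ C ∧ 0 < c ∧ c ≤ 1 ∧ ∀ (d q : ℕ) (a : ℤ), 0 < d → 0 < q →
      IsCoprime a (q : ℤ) → ‖cSum (F.H d) a q‖ ≤ wt C c q := by
  obtain ⟨C₀, hC₀, hcb⟩ := complete_bound k hk
  have hC₀' : (1:ℝ) ≤ C₀ := by exact_mod_cast hC₀
  have hC₀p : (0:ℝ) < C₀ := by linarith
  have hΔ1 : 1 ≤ F.Δ := F.content 1 one_pos 1 (fun j _ => by simp)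
  have hΔ1' : (1:ℝ) ≤ F.Δ := by exact_mod_cast hΔ1
  have hk' : (1:ℝ) ≤ k := by exact_mod_cast hk
  set C : ℝ := 2 * F.Δ + k with hC
  set c : ℝ := 1 / C₀ with hc
  refine ⟨C, c, by linarith, by positivity, ?_, ?_⟩
  · rw [hc, div_le_one hC₀p]; exact hC₀'
  intro d q a hd hq
  have hdeg : (F.H d).natDegree ≤ k := (F.natDegree_H d hd).le
  have hcont := F.content d hd
  have hCpos : 0 < C := by linarith
  -- the prime power case
  have hpp : ∀ p j : ℕ, p.Prime → 0 < j → ∀ a : ℤ, IsCoprime a ((p ^ j : ℕ) : ℤ) →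
      ‖cSum (F.H d) a (p ^ j)‖ ≤ om C c p j := by
    intro p j hp hj a ha
    have hp0 : (0:ℝ) < p := by exact_mod_cast hp.pos
    have hp1 : (1:ℝ) ≤ p := by exact_mod_cast hp.one_lt.le
    have hle1 := norm_cSum_le_one (F.H d) a (p ^ j)
    have hap : IsCoprime a (p : ℤ) := by
      rw [Nat.cast_pow] at ha
      exact (IsCoprime.pow_right_iff hj).1 ha
    unfold om
    refine le_min hle1 (le_min ?_ ?_)
    · have h1 := hcb (F.H d) F.Δ hdeg hcont (p ^ j) a (Nat.one_le_pow _ _ hp.pos) ha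
      have h2 : ‖cSum (F.H d) a (p ^ j)‖ ^ C₀ ≤ (C * (p : ℝ) ^ (-(c * j))) ^ C₀ := by
        have hq0 : (0:ℝ) < ((p ^ j : ℕ) : ℝ) := by exact_mod_cast pow_pos hp.pos j
        have h3 : (C * (p : ℝ) ^ (-(c * j))) ^ C₀ = C ^ C₀ / ((p ^ j : ℕ) : ℝ) := by
          rw [mul_pow, ← Real.rpow_natCast ((p:ℝ) ^ (-(c * j))) C₀, ← Real.rpow_mul hp0.le]
          have : -(c * j) * C₀ = -(j : ℝ) := by
            rw [hc]; field_simp
          rw [this, Real.rpow_neg hp0.le, Real.rpow_natCast]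
          push_cast
          rfl
        rw [h3, le_div_iff₀ hq0]
        refine h1.trans ?_
        calc (2:ℝ) ^ C₀ * F.Δ ≤ 2 ^ C₀ * (F.Δ : ℝ) ^ C₀ := by
              gcongr
              exact le_self_pow₀ hΔ1' (by omega)
          _ = (2 * (F.Δ : ℝ)) ^ C₀ := by rw [mul_pow]
          _ ≤ C ^ C₀ := by
              gcongr
              linarith
      exact le_of_pow_le_pow_left₀ (by omega) (by positivity) h2
    · by_cases hbig : max k F.Δ < p
      · have hkp : k < p := lt_of_le_of_lt (le_max_left _ _) hbig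
        have hΔp : F.Δ < p := lt_of_le_of_lt (le_max_right _ _) hbig
        have hkC : (k : ℝ) ≤ C := by linarith
        split_ifs with hj1
        · subst hj1
          rw [pow_one]
          refine (norm_cSum_prime_le (F.H d) k F.Δ hdeg hcont p hp hkp hΔp a hap).trans ?_
          gcongr
        · refine (cSum_prime_pow (F.H d) k F.Δ hdeg hcont p hp hkp hΔp j (by omega) a hap).trans ?_
          gcongr
      · have hpC : (p : ℝ) ≤ C := by
          have h1 : p ≤ k + F.Δ := by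
            have := not_lt.1 hbig
            rcases le_max_iff.1 this with h | h <;> omega
          have h2 : (p : ℝ) ≤ k + F.Δ := by exact_mod_cast h1
          linarith
        split_ifs with hj1
        · refine hle1.trans ?_
          rw [one_le_div (Real.sqrt_pos.2 hp0)]
          refine le_trans ?_ hpC
          rw [Real.sqrt_le_left hp0.le]
          nlinarith
        · refine hle1.trans ?_
          rw [one_le_div hp0]
          exact hpC
  -- induction
  revert a
  induction q using Nat.recOnPosPrimePosCoprime with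
  | prime_pow p n hp hn =>
    intro a ha
    rw [wt_prime_pow C c p n hp hn]
    exact hpp p n hp hn a ha
  | zero => exact absurd hq (lt_irrefl 0)
  | one =>
    intro a ha
    rw [wt_one]
    exact norm_cSum_le_one _ _ _
  | coprime x y hx hy hxy ihx ihy =>
    intro a ha
    have hx0 : 0 < x := by omega
    have hy0 : 0 < y := by omega
    obtain ⟨a₁, a₂, ha₁, ha₂, heq⟩ := cSum_mul (F.H d) x y hx0 hy0 hxy a ha
    rw [heq, norm_mul, wt_mul C c x y hxy]
    exact mul_le_mul (ihx hx0 a₁ ha₁) (ihy hy0 a₂ ha₂) (norm_nonneg _) (wt_nonneg C c hCpos.le x)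

end Vale.Agent.P042.UB
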