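import Vale.Agent.Lib.P042.UB.Prod.RLI
import Vale.Agent.Lib.P042.UB.Fejer.Kernel

set_option autoImplicit false

namespace Vale.Agent.P042.UB

/-! ### orthogonality of additive characters -/

theorem rg_e_mul_nat (t : ℝ) (a : ℕ) : e (t * a) = e t ^ a := by
  induction a with
  | zero => simp [e_zero]
  | succ a ih =>
    rw [pow_succ, ← ih, ← e_add]
    congr 1
    push_cast
    ring

theorem rg_e_eq_one {t : ℝ} (h : e t = 1) : ∃ n : ℤ, t = n := by
  rw [e, Complex.exp_eq_one_iff] at h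
  obtain ⟨n, hn⟩ := h
  refine ⟨n, ?_⟩
  have h1 : (((2 * Real.pi * t : ℝ) : ℂ) * Complex.I) = ((2 * Real.pi * n : ℝ) : ℂ) * Complex.I := by
    rw [hn]
    push_cast
    ring
  have h2 := mul_right_cancel₀ Complex.I_ne_zero h1
  have h3 : 2 * Real.pi * t = 2 * Real.pi * n := by exact_mod_cast h2
  have h4 : (2 * Real.pi : ℝ) ≠ 0 := by positivity
  exact mul_left_cancel₀ h4 h3

theorem rg_orth (q : ℕ) (hq : 1 ≤ q) (m : ℤ) :
    ∑ a ∈ Finset.range q, e ((m : ℝ) * ((a : ℝ) / q)) = if (q : ℤ) ∣ m then (q : ℂ) else 0 := by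
  have hq0 : (q : ℝ) ≠ 0 := by positivity
  have h1 : ∀ a : ℕ, e ((m : ℝ) * ((a : ℝ) / q)) = e ((m : ℝ) / q) ^ a := by
    intro a
    rw [← rg_e_mul_nat]
    congr 1
    ring
  simp_rw [h1]
  split_ifs with h
  · obtain ⟨k, rfl⟩ := h
    have h2 : e ((((q : ℤ) * k : ℤ) : ℝ) / q) = 1 := by
      have : (((q : ℤ) * k : ℤ) : ℝ) / q = (k : ℝ) := by
        push_cast
        field_simp
      rw [this, e_int]
    simp only [h2, one_pow]
    simp
  · have h2 : e ((m : ℝ) / q) ≠ 1 := by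
      intro h3
      obtain ⟨n, hn⟩ := rg_e_eq_one h3
      apply h
      refine ⟨n, ?_⟩
      rw [div_eq_iff hq0] at hn
      have : (m : ℝ) = ((n * q : ℤ) : ℝ) := by push_cast; exact hn
      have h4 : m = n * q := by exact_mod_cast this
      rw [h4, mul_comm]
    have h3 : e ((m : ℝ) / q) ^ q = 1 := by
      rw [← rg_e_mul_nat]
      have : (m : ℝ) / q * q = m := by field_simp
      rw [this, e_int]
    rw [geom_sum_eq h2, h3]
    simp

/-- Fourier transform of a summable sequence -/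
noncomputable def rgU (u : ℤ → ℝ) (φ : ℝ) : ℂ := ∑' j : ℤ, (u j : ℂ) * e (-((j : ℝ) * φ))

theorem rg_summable_mul {u : ℤ → ℝ} (hu : Summable u) (f : ℤ → ℂ) {C : ℝ}
    (hf : ∀ j, ‖f j‖ ≤ C) : Summable (fun j => (u j : ℂ) * f j) := by
  have h1 : Summable (fun j => |u j| * C) := hu.abs.mul_right C
  refine Summable.of_norm_bounded h1 fun j => ?_
  rw [norm_mul, Complex.norm_real, Real.norm_eq_abs]
  exact mul_le_mul_of_nonneg_left (hf j) (abs_nonneg _)

theorem rg_conj_U {u : ℤ → ℝ} (φ : ℝ) :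
    (starRingEnd ℂ) (rgU u φ) = ∑' j : ℤ, (u j : ℂ) * e ((j : ℝ) * φ) := by
  unfold rgU
  rw [Complex.conj_tsum]
  congr 1
  funext j
  rw [map_mul, Complex.conj_ofReal, ← e_neg, neg_neg]

/-- Parseval modulo `q` -/
theorem rg_parseval {u : ℤ → ℝ} (hu : Summable u) (q : ℕ) (hq : 1 ≤ q) :
    ∑ a ∈ Finset.range q, ‖rgU u ((a : ℝ) / q)‖ ^ 2 =
      ∑' j : ℤ, u j * ((q : ℝ) * ∑' i : ℤ, if (q : ℤ) ∣ i - j then u i else 0) := by
  have key : ((∑ a ∈ Finset.range q, ‖rgU u ((a : ℝ) / q)‖ ^ 2 : ℝ) : ℂ) =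
      ((∑' j : ℤ, u j * ((q : ℝ) * ∑' i : ℤ, if (q : ℤ) ∣ i - j then u i else 0) : ℝ) : ℂ) := by
    have h1 : ∀ a : ℕ, ((‖rgU u ((a : ℝ) / q)‖ ^ 2 : ℝ) : ℂ) =
        ∑' j : ℤ, (u j : ℂ) * (e (-((j : ℝ) * ((a : ℝ) / q))) *
          (starRingEnd ℂ) (rgU u ((a : ℝ) / q))) := by
      intro a
      rw [← Complex.normSq_eq_norm_sq, ← Complex.mul_conj]
      conv_lhs => rw [rgU]
      rw [← tsum_mul_right]
      congr 1
      funext j
      rw [mul_assoc]
      rfl
    rw [Complex.ofReal_sum]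
    simp_rw [h1]
    rw [← Summable.tsum_finsetSum]
    · rw [Complex.ofReal_tsum]
      congr 1
      funext j
      rw [← Finset.mul_sum, Complex.ofReal_mul]
      congr 1
      simp_rw [rg_conj_U, ← tsum_mul_left]
      rw [← Summable.tsum_finsetSum]
      · rw [Complex.ofReal_tsum]
        congr 1
        funext i
        have h2 : ∀ a : ℕ, e (-((j : ℝ) * ((a : ℝ) / q))) * ((u i : ℂ) * e ((i : ℝ) * ((a : ℝ) / q))) =
            (u i : ℂ) * e (((i - j : ℤ) : ℝ) * ((a : ℝ) / q)) := by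
          intro a
          rw [mul_left_comm, ← e_add]
          congr 2
          push_cast
          ring
        simp_rw [h2]
        rw [← Finset.mul_sum, rg_orth q hq]
        split_ifs with h
        · push_cast
          ring
        · simp
      · intro a _
        have h3 := rg_summable_mul hu (fun i => e (-((j : ℝ) * ((a : ℝ) / q))) *
          e ((i : ℝ) * ((a : ℝ) / q))) (C := 1) (fun i => by
            rw [norm_mul, norm_e, norm_e, one_mul])
        refine h3.congr fun i => ?_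
        ring
    · intro a _
      refine rg_summable_mul hu _ (C := ‖(starRingEnd ℂ) (rgU u ((a : ℝ) / q))‖) fun j => ?_
      rw [norm_mul, norm_e, one_mul]
  exact_mod_cast key

/-! ### densities on the product of the residue rings -/

section prodspace

variable {ι : Type} [Fintype ι] [DecidableEq ι] (pr : ι → ℕ) [hne : ∀ i, NeZero (pr i)]

/-- product of the moduli in `T` -/
def rq (T : Finset ι) : ℕ := ∏ i ∈ T, pr i

omit [Fintype ι] [DecidableEq ι] in
theorem rq_pos (T : Finset ι) : 1 ≤ rq pr T :=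
  Finset.prod_pos fun i _ => Nat.pos_of_ne_zero (hne i).out

omit [Fintype ι] [DecidableEq ι] in
theorem sz_zmod (T : Finset ι) : sz (fun i => ZMod (pr i)) T = rq pr T := by
  unfold sz rq
  exact Finset.prod_congr rfl fun i _ => ZMod.card (pr i)

/-- residues of an integer -/
def rres (j : ℤ) : ∀ i, ZMod (pr i) := fun i => (j : ZMod (pr i))

/-- density of the push-forward -/
noncomputable def rdens (u : ℤ → ℝ) (x : ∀ i, ZMod (pr i)) : ℝ :=
  (Fintype.card (∀ i, ZMod (pr i)) : ℝ) * ∑' j : ℤ, if rres pr j = x then u j else 0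

theorem summable_ite_of {u : ℤ → ℝ} (hu : Summable u) (P : ℤ → Prop) [DecidablePred P] :
    Summable fun j => if P j then u j else 0 := by
  refine Summable.of_norm_bounded hu.abs fun j => ?_
  split_ifs
  · exact le_rfl
  · simp

theorem ex_rdens_mul {u : ℤ → ℝ} (hu : Summable u) (c : (∀ i, ZMod (pr i)) → ℝ) :
    ex (fun x => rdens pr u x * c x) = ∑' j : ℤ, u j * c (rres pr j) := by
  classical
  have hcard : (Fintype.card (∀ i, ZMod (pr i)) : ℝ) ≠ 0 := by
    exact_mod_cast Fintype.card_ne_zero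
  unfold ex rdens
  have h1 : ∑ x : (∀ i, ZMod (pr i)), (Fintype.card (∀ i, ZMod (pr i)) : ℝ) *
      (∑' j : ℤ, if rres pr j = x then u j else 0) * c x =
      (Fintype.card (∀ i, ZMod (pr i)) : ℝ) *
        ∑ x : (∀ i, ZMod (pr i)), ∑' j : ℤ, (if rres pr j = x then u j else 0) * c x := by
    rw [Finset.mul_sum]
    refine Finset.sum_congr rfl fun x _ => ?_
    rw [mul_assoc, ← tsum_mul_right]
  rw [h1, mul_div_cancel_left₀ _ hcard, ← Summable.tsum_finsetSum]
  · congr 1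
    funext j
    rw [Finset.sum_eq_single (rres pr j)]
    · rw [if_pos rfl]
    · intro x _ hx
      rw [if_neg (Ne.symm hx), zero_mul]
    · intro h
      exact absurd (Finset.mem_univ _) h
  · intro x _
    exact (summable_ite_of hu _).mul_right _

theorem cex_rdens {u : ℤ → ℝ} (hu : Summable u) (T : Finset ι) (x : ∀ i, ZMod (pr i)) :
    cex T (rdens pr u) x = (rq pr T : ℝ) *
      ∑' j : ℤ, if (∀ i ∈ T, (j : ZMod (pr i)) = x i) then u j else 0 := by
  classical
  rw [cex_eq_sum, sz_zmod]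
  congr 1
  have h1 : (fun y : (∀ i, ZMod (pr i)) => if ∀ i ∈ T, y i = x i then rdens pr u y else 0) =
      fun y => rdens pr u y * (if ∀ i ∈ T, y i = x i then (1 : ℝ) else 0) := by
    funext y
    split_ifs <;> simp
  rw [h1, ex_rdens_mul pr hu]
  congr 1
  funext j
  by_cases h : ∀ i ∈ T, (j : ZMod (pr i)) = x i
  · rw [if_pos h, if_pos (show ∀ i ∈ T, rres pr j i = x i from h), mul_one]
  · rw [if_neg h, if_neg (show ¬ ∀ i ∈ T, rres pr j i = x i from h), mul_zero]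

end prodspace

/-! ### the Chinese remainder theorem -/

section crt

variable {ι : Type} [Fintype ι] [DecidableEq ι] (pr : ι → ℕ) [hne : ∀ i, NeZero (pr i)]
  (hpr : ∀ i, (pr i).Prime) (hinj : Function.Injective pr)

include hpr hinj

omit [Fintype ι] [DecidableEq ι] hne in
theorem rg_coprime {i j : ι} (h : i ≠ j) : (pr i).Coprime (pr j) :=
  (Nat.coprime_primes (hpr i) (hpr j)).2 fun e => h (hinj e)

omit [Fintype ι] [DecidableEq ι] in
theorem rg_crt (T : Finset ι) (x : ∀ i, ZMod (pr i)) :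
    ∃ b : ℤ, ∀ i ∈ T, (b : ZMod (pr i)) = x i := by
  have h := Nat.chineseRemainderOfFinset (fun i => (x i).val) pr T (fun i _ => (hne i).out)
    (fun i _ j _ hij => rg_coprime pr hpr hinj hij)
  obtain ⟨k, hk⟩ := h
  refine ⟨k, fun i hi => ?_⟩
  have h1 := (ZMod.natCast_eq_natCast_iff _ _ _).2 (hk i hi)
  rw [ZMod.natCast_zmod_val] at h1
  rw [Int.cast_natCast]
  exact h1

omit [Fintype ι] [DecidableEq ι] hne in
theorem rg_dvd_iff (T : Finset ι) (m : ℤ) :
    (rq pr T : ℤ) ∣ m ↔ ∀ i ∈ T, ((pr i : ℕ) : ℤ) ∣ m := by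
  constructor
  · intro h i hi
    refine dvd_trans ?_ h
    unfold rq
    push_cast
    exact Finset.dvd_prod_of_mem (fun i => ((pr i : ℕ) : ℤ)) hi
  · intro h
    unfold rq
    push_cast
    refine Finset.prod_dvd_of_coprime (fun i _ j _ hij => ?_) h
    exact Nat.isCoprime_iff_coprime.2 (rg_coprime pr hpr hinj hij)

omit [Fintype ι] [DecidableEq ι] hne in
theorem rg_class (T : Finset ι) (x : ∀ i, ZMod (pr i)) (b : ℤ)
    (hb : ∀ i ∈ T, (b : ZMod (pr i)) = x i) (j : ℤ) :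
    (∀ i ∈ T, (j : ZMod (pr i)) = x i) ↔ (rq pr T : ℤ) ∣ j - b := by
  rw [rg_dvd_iff pr hpr hinj]
  refine forall₂_congr fun i hi => ?_
  rw [← hb i hi, eq_comm, ZMod.intCast_eq_intCast_iff_dvd_sub]

theorem cex_rdens_class {u : ℤ → ℝ} (hu : Summable u) (T : Finset ι) (x : ∀ i, ZMod (pr i))
    (b : ℤ) (hb : ∀ i ∈ T, (b : ZMod (pr i)) = x i) :
    cex T (rdens pr u) x = (rq pr T : ℝ) *
      ∑' j : ℤ, if (rq pr T : ℤ) ∣ j - b then u j else 0 := by
  rw [cex_rdens pr hu]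
  congr 2
  funext j
  exact if_congr (rg_class pr hpr hinj T x b hb j) rfl rfl

/-- Parseval for the conditional expectations -/
theorem ex_cex_sq {u : ℤ → ℝ} (hu : Summable u) (T : Finset ι) :
    ex (fun x => cex T (rdens pr u) x ^ 2) =
      ∑ a ∈ Finset.range (rq pr T), ‖rgU u ((a : ℝ) / (rq pr T : ℝ))‖ ^ 2 := by
  have hnon : ∀ i, Nonempty (ZMod (pr i)) := fun i => ⟨0⟩
  rw [rg_parseval hu _ (rq_pos pr T)]
  have h1 : ex (fun x => cex T (rdens pr u) x ^ 2) =
      ex (fun x => rdens pr u x * cex T (rdens pr u) x) := by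
    rw [← ex_cex T (fun x => rdens pr u x * cex T (rdens pr u) x)]
    congr 1
    funext x
    have h2 := cex_mul_of_dep T (cex T (rdens pr u)) (rdens pr u)
      (fun x y h => cex_congr T (rdens pr u) x y h) x
    have h3 : (fun y => rdens pr u y * cex T (rdens pr u) y) =
        fun y => cex T (rdens pr u) y * rdens pr u y := by
      funext y
      rw [mul_comm]
    rw [h3, h2, sq]
  rw [h1, ex_rdens_mul pr hu]
  congr 1
  funext j
  rw [cex_rdens_class pr hpr hinj hu T (rres pr j) j (fun i _ => rfl)]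

omit [Fintype ι] [DecidableEq ι] hne in
theorem rg_prime_dvd_rq (R : Finset ι) (i : ι) : pr i ∣ rq pr R ↔ i ∈ R := by
  constructor
  · intro h
    unfold rq at h
    obtain ⟨j, hj, hij⟩ := (Prime.dvd_finsetProd_iff (hpr i).prime _).1 h
    have := (Nat.prime_dvd_prime_iff_eq (hpr i) (hpr j)).1 hij
    rwa [hinj this]
  · intro h
    exact Finset.dvd_prod_of_mem pr h

omit [Fintype ι] [DecidableEq ι] hne hinj in
theorem rg_coprime_iff (R : Finset ι) (a : ℕ) :
    a.Coprime (rq pr R) ↔ ∀ i ∈ R, ¬ pr i ∣ a := by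
  unfold rq
  rw [Nat.coprime_prod_right_iff]
  refine forall₂_congr fun i _ => ?_
  rw [Nat.coprime_comm, (hpr i).coprime_iff_not_dvd]

omit [Fintype ι] in
theorem rg_frac (F : ℝ → ℝ) (T : Finset ι) :
    ∑ a ∈ Finset.range (rq pr T), F ((a : ℝ) / (rq pr T : ℝ)) =
      ∑ R ∈ T.powerset, ∑ a ∈ (Finset.range (rq pr R)).filter (fun a => a.Coprime (rq pr R)),
        F ((a : ℝ) / (rq pr R : ℝ)) := by
  rw [← Finset.sum_fiberwise_of_maps_to (g := fun a : ℕ => T.filter (fun i => ¬ pr i ∣ a))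
    (t := T.powerset) (fun a _ => Finset.mem_powerset.2 (Finset.filter_subset _ _))]
  refine Finset.sum_congr rfl fun R hR => ?_
  have hRT : R ⊆ T := Finset.mem_powerset.1 hR
  have hmul : rq pr (T \ R) * rq pr R = rq pr T := Finset.prod_sdiff hRT
  have hD : 0 < rq pr (T \ R) := rq_pos pr _
  have hRpos : 0 < rq pr R := rq_pos pr _
  -- divisibility
  have hdvd : ∀ a : ℕ, T.filter (fun i => ¬ pr i ∣ a) = R → rq pr (T \ R) ∣ a := by
    intro a ha
    have h1 : ((rq pr (T \ R) : ℕ) : ℤ) ∣ (a : ℤ) := by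
      rw [rg_dvd_iff pr hpr hinj]
      intro i hi
      rw [Finset.mem_sdiff] at hi
      rw [Int.natCast_dvd_natCast]
      by_contra hcon
      exact hi.2 (by rw [← ha]; exact Finset.mem_filter.2 ⟨hi.1, hcon⟩)
    exact Int.natCast_dvd_natCast.1 h1
  refine Finset.sum_nbij' (fun a => a / rq pr (T \ R)) (fun a => rq pr (T \ R) * a) ?_ ?_ ?_ ?_ ?_
  · intro a ha
    rw [Finset.mem_filter, Finset.mem_range] at ha
    obtain ⟨k, rfl⟩ := hdvd a ha.2
    rw [Finset.mem_filter, Finset.mem_range, Nat.mul_div_cancel_left _ hD]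
    constructor
    · have := ha.1
      rw [← hmul] at this
      exact Nat.lt_of_mul_lt_mul_left this
    · rw [rg_coprime_iff pr hpr]
      intro i hi hk
      have h2 : i ∈ T.filter (fun i => ¬ pr i ∣ rq pr (T \ R) * k) := by rw [ha.2]; exact hi
      exact (Finset.mem_filter.1 h2).2 (hk.mul_left _)
  · intro a ha
    rw [Finset.mem_filter, Finset.mem_range, rg_coprime_iff pr hpr] at ha
    rw [Finset.mem_filter, Finset.mem_range]
    constructor
    · rw [← hmul]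
      exact Nat.mul_lt_mul_of_pos_left ha.1 hD
    · ext i
      rw [Finset.mem_filter, (hpr i).dvd_mul, rg_prime_dvd_rq pr hpr hinj, Finset.mem_sdiff]
      constructor
      · rintro ⟨h1, h2⟩
        by_contra hcon
        exact h2 (Or.inl ⟨h1, hcon⟩)
      · intro hi
        refine ⟨hRT hi, ?_⟩
        rintro (h1 | h1)
        · exact h1.2 hi
        · exact ha.2 i hi h1
  · intro a ha
    rw [Finset.mem_filter, Finset.mem_range] at ha
    exact Nat.mul_div_cancel' (hdvd a ha.2)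
  · intro a _
    exact Nat.mul_div_cancel_left _ hD
  · intro a ha
    rw [Finset.mem_filter, Finset.mem_range] at ha
    obtain ⟨k, rfl⟩ := hdvd a ha.2
    rw [Nat.mul_div_cancel_left _ hD, ← hmul]
    congr 1
    push_cast
    have h1 : (rq pr (T \ R) : ℝ) ≠ 0 := by exact_mod_cast hD.ne'
    have h2 : (rq pr R : ℝ) ≠ 0 := by exact_mod_cast hRpos.ne'
    field_simp

omit [Fintype ι] pr hne hpr hinj in
theorem rg_mobius (A B : Finset ι → ℝ) (h : ∀ T, B T = ∑ R ∈ T.powerset, A R) (S : Finset ι) :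
    ∑ T ∈ S.powerset, (-1 : ℝ) ^ (S.card - T.card) * B T = A S := by
  have h1 : ∀ T ∈ S.powerset, (-1 : ℝ) ^ (S.card - T.card) * B T =
      ∑ R ∈ S.powerset, if R ⊆ T then (-1 : ℝ) ^ (S.card - T.card) * A R else 0 := by
    intro T hT
    rw [h T, Finset.mul_sum, ← Finset.sum_filter]
    refine Finset.sum_congr ?_ fun _ _ => rfl
    ext R
    rw [Finset.mem_filter, Finset.mem_powerset, Finset.mem_powerset]
    rw [Finset.mem_powerset] at hT
    exact ⟨fun h => ⟨h.trans hT, h⟩, fun h => h.2⟩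
  rw [Finset.sum_congr rfl h1, Finset.sum_comm]
  have h2 : ∀ R ∈ S.powerset, (∑ T ∈ S.powerset, if R ⊆ T then
      (-1 : ℝ) ^ (S.card - T.card) * A R else 0) = if R = S then A R else 0 := by
    intro R hR
    rw [Finset.mem_powerset] at hR
    rw [← Finset.sum_filter]
    have h3 : ∑ T ∈ S.powerset.filter (fun T => R ⊆ T), (-1 : ℝ) ^ (S.card - T.card) * A R =
        ∑ U ∈ (S \ R).powerset, (-1 : ℝ) ^ U.card * A R := by
      refine Finset.sum_nbij' (fun T => S \ T) (fun U => S \ U) ?_ ?_ ?_ ?_ ?_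
      · intro T hT
        rw [Finset.mem_filter, Finset.mem_powerset] at hT
        rw [Finset.mem_powerset]
        exact Finset.sdiff_subset_sdiff subset_rfl hT.2
      · intro U hU
        rw [Finset.mem_powerset] at hU
        rw [Finset.mem_filter, Finset.mem_powerset]
        refine ⟨Finset.sdiff_subset, fun i hi => ?_⟩
        rw [Finset.mem_sdiff]
        exact ⟨hR hi, fun h => (Finset.mem_sdiff.1 (hU h)).2 hi⟩
      · intro T hT
        rw [Finset.mem_filter, Finset.mem_powerset] at hT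
        exact Finset.sdiff_sdiff_eq_self hT.1
      · intro U hU
        rw [Finset.mem_powerset] at hU
        exact Finset.sdiff_sdiff_eq_self (hU.trans Finset.sdiff_subset)
      · intro T hT
        rw [Finset.mem_filter, Finset.mem_powerset] at hT
        rw [Finset.card_sdiff_of_subset hT.1]
    rw [h3, ← Finset.sum_mul]
    have h4 : ∑ U ∈ (S \ R).powerset, (-1 : ℝ) ^ U.card = if S \ R = ∅ then 1 else 0 := by
      have := Finset.sum_powerset_neg_one_pow_card (x := S \ R)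
      exact_mod_cast congrArg (fun z : ℤ => (z : ℝ)) this
    rw [h4]
    by_cases hRS : R = S
    · subst hRS
      simp
    · rw [if_neg, if_neg hRS, zero_mul]
      intro h5
      exact hRS (Finset.Subset.antisymm hR (Finset.sdiff_eq_empty_iff_subset.1 h5))
  rw [Finset.sum_congr rfl h2, Finset.sum_ite_eq' S.powerset S A, if_pos (Finset.mem_powerset_self S)]

/-- energies of the components -/
theorem ex_cmp_rdens_sq {u : ℤ → ℝ} (hu : Summable u) (S : Finset ι) :
    ex (fun x => cmp (rdens pr u) S x ^ 2) =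
      ∑ a ∈ (Finset.range (rq pr S)).filter (fun a => a.Coprime (rq pr S)),
        ‖rgU u ((a : ℝ) / (rq pr S : ℝ))‖ ^ 2 := by
  have hnon : ∀ i, Nonempty (ZMod (pr i)) := fun i => ⟨0⟩
  rw [ex_cmp_sq]
  refine rg_mobius (fun S => ∑ a ∈ (Finset.range (rq pr S)).filter
    (fun a => a.Coprime (rq pr S)), ‖rgU u ((a : ℝ) / (rq pr S : ℝ))‖ ^ 2)
    (fun T => ex (fun x => cex T (rdens pr u) x ^ 2)) (fun T => ?_) S
  rw [ex_cex_sq pr hpr hinj hu, rg_frac pr hpr hinj (fun φ => ‖rgU u φ‖ ^ 2)]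

end crt

/-! ### sums over primes, geometric series -/

theorem rg_wsum (n : ℕ) (hn : 2 ≤ n) (P : ℕ) (hP : 1 ≤ P) (hP2 : P ≤ 2 ^ (2 * n)) (Cw : ℝ)
    (hCw : 0 ≤ Cw) (w : ℕ → ℝ) (hw0 : ∀ p, 0 ≤ w p) (hw : ∀ p, w p ≤ Cw / Real.sqrt p)
    (J : Finset ℕ) (hJ : ∀ p ∈ J, P < p) :
    ∑ p ∈ J, w p ^ (2 * n) ≤ (2 * (Cw / Real.sqrt P)) ^ (2 * n) := by
  obtain ⟨k, rfl⟩ : ∃ k, n = k + 2 := ⟨n - 2, by omega⟩
  have hP0 : (0 : ℝ) < P := by exact_mod_cast hP
  have h1 : ∀ p ∈ J, w p ^ (2 * (k + 2)) ≤ Cw ^ (2 * (k + 2)) / (P : ℝ) ^ k * ((p : ℝ) ^ 2)⁻¹ := by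
    intro p hp
    have hPp : (P : ℝ) < p := by exact_mod_cast hJ p hp
    have hp0 : (0 : ℝ) < p := hP0.trans hPp
    calc w p ^ (2 * (k + 2)) ≤ (Cw / Real.sqrt p) ^ (2 * (k + 2)) :=
          pow_le_pow_left₀ (hw0 p) (hw p) _
      _ = Cw ^ (2 * (k + 2)) / ((p : ℝ) ^ k * (p : ℝ) ^ 2) := by
          rw [div_pow, pow_mul (Real.sqrt p), Real.sq_sqrt hp0.le, pow_add]
      _ = Cw ^ (2 * (k + 2)) / (p : ℝ) ^ k * ((p : ℝ) ^ 2)⁻¹ := by
          field_simp
      _ ≤ Cw ^ (2 * (k + 2)) / (P : ℝ) ^ k * ((p : ℝ) ^ 2)⁻¹ := by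
          apply mul_le_mul_of_nonneg_right _ (by positivity)
          apply div_le_div_of_nonneg_left (by positivity) (by positivity)
          exact pow_le_pow_left₀ hP0.le hPp.le _
  have h2 : ∑ p ∈ J, ((p : ℝ) ^ 2)⁻¹ ≤ (P : ℝ)⁻¹ := by
    have hsub : J ⊆ Finset.Ioc P (max P (J.sup id)) := by
      intro p hp
      rw [Finset.mem_Ioc]
      exact ⟨hJ p hp, (Finset.le_sup (f := id) hp).trans (le_max_right _ _)⟩
    calc ∑ p ∈ J, ((p : ℝ) ^ 2)⁻¹ ≤ ∑ p ∈ Finset.Ioc P (max P (J.sup id)), ((p : ℝ) ^ 2)⁻¹ :=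
          Finset.sum_le_sum_of_subset_of_nonneg hsub fun _ _ _ => by positivity
      _ ≤ (P : ℝ)⁻¹ - ((max P (J.sup id) : ℕ) : ℝ)⁻¹ :=
          sum_Ioc_inv_sq_le_sub (by omega) (le_max_left _ _)
      _ ≤ (P : ℝ)⁻¹ := by
          have : (0 : ℝ) ≤ ((max P (J.sup id) : ℕ) : ℝ)⁻¹ := by positivity
          linarith
  have h3 : (P : ℝ) ≤ 2 ^ (2 * (k + 2)) := by exact_mod_cast hP2
  calc ∑ p ∈ J, w p ^ (2 * (k + 2))
      ≤ ∑ p ∈ J, Cw ^ (2 * (k + 2)) / (P : ℝ) ^ k * ((p : ℝ) ^ 2)⁻¹ := Finset.sum_le_sum h1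
    _ = Cw ^ (2 * (k + 2)) / (P : ℝ) ^ k * ∑ p ∈ J, ((p : ℝ) ^ 2)⁻¹ := by rw [Finset.mul_sum]
    _ ≤ Cw ^ (2 * (k + 2)) / (P : ℝ) ^ k * (P : ℝ)⁻¹ :=
        mul_le_mul_of_nonneg_left h2 (by positivity)
    _ = Cw ^ (2 * (k + 2)) / (P : ℝ) ^ (k + 2) * P := by
        field_simp
        ring
    _ ≤ Cw ^ (2 * (k + 2)) / (P : ℝ) ^ (k + 2) * 2 ^ (2 * (k + 2)) :=
        mul_le_mul_of_nonneg_left h3 (by positivity)
    _ = (2 * (Cw / Real.sqrt P)) ^ (2 * (k + 2)) := by
        rw [mul_pow, div_pow, pow_mul (Real.sqrt P), Real.sq_sqrt hP0.le]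
        ring

theorem rg_geom (r : ℝ) (hr0 : 0 ≤ r) (hr : r ≤ 1 / 2) (N : ℕ) :
    ∑ d ∈ Finset.Icc 1 N, r ^ d ≤ 2 * r := by
  have h : ∀ N : ℕ, ∑ d ∈ Finset.Icc 1 N, r ^ d ≤ 2 * r * (1 - (1 / 2) ^ N) := by
    intro N
    induction N with
    | zero => simp
    | succ N ih =>
      rw [Finset.sum_Icc_succ_top (by omega)]
      have h1 : r ^ (N + 1) ≤ r * (1 / 2) ^ N := by
        rw [pow_succ, mul_comm]
        exact mul_le_mul_of_nonneg_left (pow_le_pow_left₀ hr0 hr N) hr0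
      have h2 : ((1 : ℝ) / 2) ^ (N + 1) = (1 / 2) ^ N / 2 := by
        rw [pow_succ]; ring
      rw [h2]
      nlinarith
  have h1 := h N
  have h2 : (0 : ℝ) ≤ (1 / 2) ^ N := by positivity
  nlinarith

section arith

variable {ι : Type} [DecidableEq ι] (pr : ι → ℕ) (hpr : ∀ i, (pr i).Prime)
  (hinj : Function.Injective pr)

include hpr hinj

omit [DecidableEq ι] in
theorem rg_squarefree (S : Finset ι) : Squarefree (rq pr S) := by
  unfold rq
  refine Finset.squarefree_prod_of_pairwise_isCoprime (fun i _ j _ hij => ?_)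
    fun i _ => (hpr i).squarefree
  simp only [Function.onFun, ← Nat.coprime_iff_isRelPrime]
  exact rg_coprime pr hpr hinj hij

omit [DecidableEq ι] hinj in
theorem rg_primeFactors (S : Finset ι) : (rq pr S).primeFactors = S.image pr := by
  ext p
  rw [Nat.mem_primeFactors, Finset.mem_image]
  constructor
  · rintro ⟨hp, hpd, _⟩
    obtain ⟨i, hi, hpi⟩ := (Prime.dvd_finsetProd_iff hp.prime _).1 hpd
    exact ⟨i, hi, ((Nat.prime_dvd_prime_iff_eq hp (hpr i)).1 hpi).symm⟩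
  · rintro ⟨i, hi, rfl⟩
    refine ⟨hpr i, Finset.dvd_prod_of_mem pr hi, ?_⟩
    exact Finset.prod_ne_zero_iff.2 fun i _ => (hpr i).ne_zero

end arith

theorem rg_rq_filter (J : Finset ℕ) (pr : J → ℕ) (hpr : ∀ i, pr i = i.1) (q : ℕ)
    (hq : Squarefree q) (hqJ : q.primeFactors ⊆ J) (hJ : ∀ p ∈ J, p.Prime) :
    rq pr (Finset.univ.filter (fun i : J => i.1 ∣ q)) = q := by
  unfold rq
  rw [Finset.prod_filter]
  simp_rw [hpr]
  rw [Finset.prod_coe_sort J (fun p => if p ∣ q then p else 1), ← Finset.prod_filter]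
  have : J.filter (fun p => p ∣ q) = q.primeFactors := by
    ext p
    rw [Finset.mem_filter, Nat.mem_primeFactors]
    constructor
    · rintro ⟨h1, h2⟩
      exact ⟨hJ p h1, h2, hq.ne_zero⟩
    · rintro ⟨h1, h2, h3⟩
      exact ⟨hqJ (Nat.mem_primeFactors.2 ⟨h1, h2, h3⟩), h2⟩
  rw [this]
  exact Nat.prod_primeFactors_of_squarefree hq

/-- The rough part: a function `g : ℤ → [0,1]` without large density increment on residue classes
to rough squarefree moduli has little energy at nonzero frequencies with rough squarefree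
denominators.

PROOF. `ι` = the finite type of primes in `J`, `Ω p = ZMod p` (need `p ≠ 0`: `Fintype`,
`Nonempty`). Let `ν`, `G` be the densities with respect to the uniform measure on
`Ω = ∏_{p ∈ J} ZMod p` of the push-forwards of `fw H` and `fw H · g` under
`j ↦ (j mod p)_p`, i.e. `ν(x) = |Ω| ∑_{j ≡ x} v(j)`. Then `cex T ν x = q_T ∑_{j ≡ x mod q_T} v(j)`,
which is `1` for `q_T ≤ H` (`tsum_fw_class`; the class `{j : ∀ p ∈ T, j ≡ x_p mod p}` is a residue
class mod `q_T = ∏_{p∈T} p` by the Chinese remainder theorem), and `cex T G x ≤ 2α` for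
`q_T ≤ K` by `hg`. `RLI` with `w p ≤ w₀ = Cw/√P`:
`∑_p (w p)^{2n} ≤ Cw^{2n} ∑_{j > P} j^{-n} ≤ Cw^{2n} P^{1-n} = P w₀^{2n} ≤ (2 w₀)^{2n}`.
Sum over `1 ≤ d ≤ |J|`: geometric series with ratio `400 κ ≤ 1/2`:
`∑_d 4 (400κ)^d α² ≤ 3200 κ α²`.
Energies: for `S ≠ ∅`, `q = q_S`: `ex (cmp G S)² = ∑_{a unit mod q} |g^(a/q)|²`, with
`g^(φ) = ∑_j v(j) g(j) e(-jφ)`: `cex T G` is the function on `ℤ/q_T`
`b ↦ q_T ∑_{j≡b} v(j) g(j) = ∑_{a mod q_T} g^(a/q_T) e(ab/q_T)` (Fourier inversion), the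
fractions `a/q_T`, `a mod q_T`, are the reduced fractions with denominator dividing `q_T`, so by
Möbius inversion over subsets `cmp G S (b) = ∑_{a unit mod q_S} g^(a/q_S) e(ab/q_S)`, and
Parseval. (Or use `ex_cmp_sq` and Parseval for each `T`, then Möbius inversion.) -/
theorem rough_bound (n : ℕ) (hn : 2 ≤ n) (P K H : ℕ) (hP : 1 ≤ P) (hP2 : P ≤ 2 ^ (2 * n))
    (hH : 2 ≤ H) (hKH : K ^ (2 * n) ≤ H) (α : ℝ) (hα : 0 < α) (hα1 : α ≤ 1)
    (hαn : Real.exp (-(2 * n : ℝ)) ≤ α) (Cw : ℝ) (hCw : 0 ≤ Cw) (w : ℕ → ℝ)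
    (hw0 : ∀ p, 0 ≤ w p) (hw : ∀ p, w p ≤ Cw / Real.sqrt p)
    (hκ : 400 * (2 * n * (Cw / Real.sqrt P)) ≤ 1 / 2) (g : ℤ → ℝ) (hg0 : ∀ j, 0 ≤ g j)
    (hg1 : ∀ j, g j ≤ 1) (J : Finset ℕ) (hJ : ∀ p ∈ J, p.Prime ∧ P < p)
    (hg : ∀ q : ℕ, 1 ≤ q → q ≤ K → Squarefree q → q.primeFactors ⊆ J → ∀ b : ℤ,
      (q : ℝ) * ∑' j : ℤ, (if (q : ℤ) ∣ j - b then fw H j * g j else 0) ≤ 2 * α) :
    ∑ q ∈ (Finset.Icc 2 K).filter (fun q => Squarefree q ∧ q.primeFactors ⊆ J),
      (∏ p ∈ q.primeFactors, w p) *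
        ∑ a ∈ (Finset.range q).filter (fun a => a.Coprime q),
          ‖∑' j : ℤ, ((fw H j * g j : ℝ) : ℂ) * e (-((j : ℝ) * ((a : ℝ) / q)))‖ ^ 2 ≤
      3200 * (2 * n * (Cw / Real.sqrt P)) * α ^ 2 := by
  classical
  have hP0 : (0 : ℝ) < P := by exact_mod_cast hP
  set pr : J → ℕ := fun i => i.1 with hprdef
  have hpr : ∀ i, (pr i).Prime := fun i => (hJ i.1 i.2).1
  have hinj : Function.Injective pr := Subtype.val_injective
  have hne : ∀ i, NeZero (pr i) := fun i => ⟨(hpr i).ne_zero⟩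
  have hnon : ∀ i, Nonempty (ZMod (pr i)) := fun i => ⟨0⟩
  have hfw : Summable (fw H) := summable_fw H (by omega)
  set u : ℤ → ℝ := fun j => fw H j * g j with hu
  have hu0 : ∀ j, 0 ≤ u j := fun j => mul_nonneg (fw_nonneg H j) (hg0 j)
  have hule : ∀ j, u j ≤ fw H j := fun j => by
    have := mul_le_mul_of_nonneg_left (hg1 j) (fw_nonneg H j)
    rw [mul_one] at this
    exact this
  have hus : Summable u := Summable.of_nonneg_of_le hu0 hule hfw
  set w₀ : ℝ := Cw / Real.sqrt P with hw₀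
  have hw₀0 : 0 ≤ w₀ := by positivity
  have hwle : ∀ i : J, w (pr i) ≤ w₀ := by
    intro i
    refine (hw _).trans ?_
    have h1 : (P : ℝ) < (pr i : ℝ) := by exact_mod_cast (hJ i.1 i.2).2
    exact div_le_div_of_nonneg_left hCw (Real.sqrt_pos.2 hP0) (Real.sqrt_le_sqrt h1.le)
  have hsum : ∑ i : J, w (pr i) ^ (2 * n) ≤ (2 * w₀) ^ (2 * n) := by
    rw [Finset.sum_coe_sort J (fun p => w p ^ (2 * n))]
    exact rg_wsum n hn P hP hP2 Cw hCw w hw0 hw J fun p hp => (hJ p hp).2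
  set κ : ℝ := 2 * n * w₀ with hκdef
  have hκ0 : 0 ≤ κ := by positivity
  -- the rough level inequality
  have hR := fun d => RLI (Ω := fun i => ZMod (pr i)) n hn α hα hα1 hαn (fun i => w (pr i)) w₀
    hw₀0 (fun i => hw0 _) hwle hsum d Finset.univ (K : ℝ) (H : ℝ) (rdens pr (fw H)) (rdens pr u)
    (Nat.cast_nonneg K) (by exact_mod_cast hKH)
    (fun x => mul_nonneg (Nat.cast_nonneg _) (tsum_nonneg fun j => by
      split_ifs
      · exact hu0 j
      · exact le_rfl))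
    (fun x => mul_le_mul_of_nonneg_left (Summable.tsum_le_tsum (fun j => by
      split_ifs
      · exact hule j
      · exact le_rfl) (summable_ite_of hus _) (summable_ite_of hfw _)) (Nat.cast_nonneg _))
    (fun T _ hT x => by
      rw [sz_zmod] at hT
      obtain ⟨b, hb⟩ := rg_crt pr hpr hinj T x
      rw [cex_rdens_class pr hpr hinj hfw T x b hb,
        tsum_fw_class H hH _ (rq_pos pr T) (by exact_mod_cast hT)]
      have : (rq pr T : ℝ) ≠ 0 := by
        have := rq_pos pr T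
        positivity
      field_simp)
    (fun T _ hT x => by
      rw [sz_zmod] at hT
      obtain ⟨b, hb⟩ := rg_crt pr hpr hinj T x
      rw [cex_rdens_class pr hpr hinj hus T x b hb]
      exact hg _ (rq_pos pr T) (by exact_mod_cast hT) (rg_squarefree pr hpr hinj T)
        (by
          rw [rg_primeFactors pr hpr]
          intro p hp
          obtain ⟨i, -, rfl⟩ := Finset.mem_image.1 hp
          exact i.2) b)
  -- the term of a set of primes
  set t : Finset J → ℝ := fun S => (∏ i ∈ S, w (pr i)) *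
    ∑ a ∈ (Finset.range (rq pr S)).filter (fun a => a.Coprime (rq pr S)),
      ‖rgU u ((a : ℝ) / (rq pr S : ℝ))‖ ^ 2 with ht
  have hlevel : ∀ d, ∑ S ∈ (Finset.univ : Finset (Finset J)).filter
      (fun S => S.card = d ∧ rq pr S ≤ K), t S ≤ 4 * (400 * κ) ^ d * α ^ 2 := by
    intro d
    refine le_trans (le_of_eq ?_) (hR d)
    refine Finset.sum_congr ?_ fun S _ => ?_
    · ext S
      rw [Finset.mem_filter, Finset.mem_filter, sz_zmod, Nat.cast_le]
      simp only [Finset.mem_univ, true_and, Finset.mem_powerset, Finset.subset_univ]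
    · rw [ht, ex_cmp_rdens_sq pr hpr hinj hus]
  have hlhs : ∑ q ∈ (Finset.Icc 2 K).filter (fun q => Squarefree q ∧ q.primeFactors ⊆ J),
      (∏ p ∈ q.primeFactors, w p) *
        ∑ a ∈ (Finset.range q).filter (fun a => a.Coprime q),
          ‖∑' j : ℤ, ((fw H j * g j : ℝ) : ℂ) * e (-((j : ℝ) * ((a : ℝ) / q)))‖ ^ 2 =
      ∑ S ∈ (Finset.univ : Finset (Finset J)).filter (fun S => S.Nonempty ∧ rq pr S ≤ K), t S := by
    symm
    refine Finset.sum_nbij' (fun S => rq pr S)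
      (fun q => Finset.univ.filter (fun i : J => i.1 ∣ q)) ?_ ?_ ?_ ?_ ?_
    · intro S hS
      rw [Finset.mem_filter] at hS
      rw [Finset.mem_filter, Finset.mem_Icc]
      refine ⟨⟨?_, hS.2.2⟩, rg_squarefree pr hpr hinj S, ?_⟩
      · obtain ⟨i, hi⟩ := hS.2.1
        have h1 : pr i ∣ rq pr S := (rg_prime_dvd_rq pr hpr hinj S i).2 hi
        exact (hpr i).two_le.trans (Nat.le_of_dvd (rq_pos pr S) h1)
      · rw [rg_primeFactors pr hpr]
        intro p hp
        obtain ⟨i, -, rfl⟩ := Finset.mem_image.1 hp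
        exact i.2
    · intro q hq
      rw [Finset.mem_filter, Finset.mem_Icc] at hq
      have hq' := rg_rq_filter J pr (fun i => rfl) q hq.2.1 hq.2.2 (fun p hp => (hJ p hp).1)
      rw [Finset.mem_filter]
      refine ⟨Finset.mem_univ _, ?_, by rw [hq']; exact hq.1.2⟩
      obtain ⟨p, hp, hpq⟩ := Nat.exists_prime_and_dvd (show q ≠ 1 by omega)
      have hpJ : p ∈ J := hq.2.2 (Nat.mem_primeFactors.2 ⟨hp, hpq, by omega⟩)
      exact ⟨⟨p, hpJ⟩, Finset.mem_filter.2 ⟨Finset.mem_univ _, hpq⟩⟩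
    · intro S _
      ext i
      rw [Finset.mem_filter]
      simp only [Finset.mem_univ, true_and]
      exact rg_prime_dvd_rq pr hpr hinj S i
    · intro q hq
      rw [Finset.mem_filter, Finset.mem_Icc] at hq
      exact rg_rq_filter J pr (fun i => rfl) q hq.2.1 hq.2.2 (fun p hp => (hJ p hp).1)
    · intro S _
      simp only [ht]
      rw [rg_primeFactors pr hpr, Finset.prod_image (fun i _ j _ h => hinj h)]
      rfl
  rw [hlhs]
  have hfib : ∑ S ∈ (Finset.univ : Finset (Finset J)).filter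
      (fun S => S.Nonempty ∧ rq pr S ≤ K), t S =
      ∑ d ∈ Finset.Icc 1 (Fintype.card J), ∑ S ∈ (Finset.univ : Finset (Finset J)).filter
      (fun S => S.card = d ∧ rq pr S ≤ K), t S := by
    rw [← Finset.sum_fiberwise_of_maps_to (g := Finset.card)
      (t := Finset.Icc 1 (Fintype.card J))]
    · refine Finset.sum_congr rfl fun d hd => ?_
      refine Finset.sum_congr ?_ (fun _ _ => rfl)
      rw [Finset.mem_Icc] at hd
      ext S
      rw [Finset.mem_filter, Finset.mem_filter, Finset.mem_filter]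
      constructor
      · rintro ⟨⟨_, _, h2⟩, h3⟩
        exact ⟨Finset.mem_univ _, h3, h2⟩
      · rintro ⟨_, h3, h2⟩
        refine ⟨⟨Finset.mem_univ _, ?_, h2⟩, h3⟩
        rw [← Finset.card_pos, h3]
        exact hd.1
    · intro S hS
      rw [Finset.mem_filter] at hS
      rw [Finset.mem_Icc]
      exact ⟨Finset.card_pos.2 hS.2.1, Finset.card_le_univ S⟩
  rw [hfib]
  calc ∑ d ∈ Finset.Icc 1 (Fintype.card J), ∑ S ∈ (Finset.univ : Finset (Finset J)).filter
        (fun S => S.card = d ∧ rq pr S ≤ K), t S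
      ≤ ∑ d ∈ Finset.Icc 1 (Fintype.card J), 4 * (400 * κ) ^ d * α ^ 2 :=
        Finset.sum_le_sum fun d _ => hlevel d
    _ = 4 * α ^ 2 * ∑ d ∈ Finset.Icc 1 (Fintype.card J), (400 * κ) ^ d := by
        rw [Finset.mul_sum]
        exact Finset.sum_congr rfl fun d _ => by ring
    _ ≤ 4 * α ^ 2 * (2 * (400 * κ)) :=
        mul_le_mul_of_nonneg_left (rg_geom _ (by positivity) hκ _) (by positivity)
    _ = 3200 * κ * α ^ 2 := by ring


end Vale.Agent.P042.UB
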