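import Vale.Agent.Lib.P042.UB.CSumWt

set_option autoImplicit false

namespace Vale.Agent.P042.UB

/-- The set of primes `p > P` exactly dividing `q`. -/
def roughPrimes (P q : ℕ) : Finset ℕ :=
  q.primeFactors.filter (fun p => P < p ∧ q.factorization p = 1)

/-- The rough squarefree part of `q`. -/
def roughPart (P q : ℕ) : ℕ := ∏ p ∈ roughPrimes P q, p

/-- The complementary factor. -/
def smoothPart (P q : ℕ) : ℕ :=
  ∏ p ∈ q.primeFactors.filter (fun p => ¬ (P < p ∧ q.factorization p = 1)),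
    p ^ q.factorization p

theorem smooth_mul_rough (P q : ℕ) (hq : q ≠ 0) : smoothPart P q * roughPart P q = q := by
  have h1 : roughPart P q = ∏ p ∈ q.primeFactors.filter (fun p => P < p ∧ q.factorization p = 1),
      p ^ q.factorization p := by
    unfold roughPart roughPrimes
    refine Finset.prod_congr rfl fun p hp => ?_
    rw [(Finset.mem_filter.1 hp).2.2, pow_one]
  rw [h1, mul_comm]
  unfold smoothPart
  rw [Finset.prod_filter_mul_prod_filter_not]
  exact Nat.prod_factorization_pow_eq_self hq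

theorem squarefree_prod_primes (S : Finset ℕ) (hS : ∀ p ∈ S, p.Prime) :
    Squarefree (∏ p ∈ S, p) := by
  induction S using Finset.induction_on with
  | empty => simp
  | insert a S ha ih =>
    rw [Finset.prod_insert ha]
    have hS' : ∀ p ∈ S, p.Prime := fun p hp => hS p (Finset.mem_insert_of_mem hp)
    have hap : a.Prime := hS a (Finset.mem_insert_self a S)
    rw [Nat.squarefree_mul]
    · exact ⟨hap.squarefree, ih hS'⟩
    · refine Nat.Coprime.prod_right fun p hp => ?_
      rw [Nat.coprime_primes hap (hS' p hp)]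
      rintro rfl
      exact ha hp

theorem roughPart_squarefree (P q : ℕ) : Squarefree (roughPart P q) :=
  squarefree_prod_primes _ fun _ hp => Nat.prime_of_mem_primeFactors (Finset.mem_filter.1 hp).1

theorem prime_dvd_roughPart (P q p : ℕ) (hp : p.Prime) (h : p ∣ roughPart P q) : P < p := by
  unfold roughPart at h
  obtain ⟨p', hp', hd⟩ := (Prime.dvd_finsetProd_iff hp.prime _).1 h
  have hp'' := Finset.mem_filter.1 hp'
  have h2 : p'.Prime := Nat.prime_of_mem_primeFactors hp''.1
  rw [(Nat.prime_dvd_prime_iff_eq hp h2).1 hd]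
  exact hp''.2.1

theorem prime_dvd_smoothPart (P q p : ℕ) (hp : p.Prime) (hP : P < p)
    (h : p ∣ smoothPart P q) : p ^ 2 ∣ smoothPart P q := by
  unfold smoothPart at h
  obtain ⟨p', hp', hd⟩ := (Prime.dvd_finsetProd_iff hp.prime _).1 h
  have hp'' := Finset.mem_filter.1 hp'
  have h2 : p'.Prime := Nat.prime_of_mem_primeFactors hp''.1
  have h3 : p = p' := (Nat.prime_dvd_prime_iff_eq hp h2).1 (hp.dvd_of_dvd_pow hd)
  subst h3
  have h4 : q.factorization p ≠ 1 := fun h1 => hp''.2 ⟨hP, h1⟩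
  have h5 : 0 < q.factorization p := by
    have := Nat.support_factorization q
    have h6 : p ∈ q.factorization.support := by rw [this]; exact hp''.1
    exact Nat.pos_of_ne_zero (Finsupp.mem_support_iff.1 h6)
  exact (pow_dvd_pow p (by omega)).trans (Finset.dvd_prod_of_mem
    (fun p => p ^ q.factorization p) hp')

theorem coprime_smooth_rough (P q : ℕ) : (smoothPart P q).Coprime (roughPart P q) := by
  unfold smoothPart roughPart roughPrimes
  refine Nat.Coprime.prod_left fun p hp => Nat.Coprime.prod_right fun p' hp' => ?_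
  have h1 := Finset.mem_filter.1 hp
  have h2 := Finset.mem_filter.1 hp'
  refine Nat.Coprime.pow_left _ ?_
  rw [Nat.coprime_primes (Nat.prime_of_mem_primeFactors h1.1)
    (Nat.prime_of_mem_primeFactors h2.1)]
  rintro rfl
  exact h1.2 h2.2

/-- Combination of the divisor weights with nonnegative energies.

PROOF. Every `q ≤ K` is uniquely `q = q₁ q₂` with `q₂ = ∏_{p ∥ q, p > P} p` squarefree with all
primes `> P`, `q₁` coprime to `q₂` and `p² ∣ q₁` for `p ∣ q₁`, `p > P`. `wt q = wt q₁ wt q₂`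
(multiplicativity), use `hDD` for `wt q₁` and exchange the sums. -/
theorem combine (C c : ℝ) (hC : 0 ≤ C) (K P : ℕ) (DD : Finset ℕ) (ϖ : ℕ → ℝ)
    (hϖ : ∀ D, 0 ≤ ϖ D) (hD1 : ∀ D ∈ DD, 1 ≤ D)
    (hDD : ∀ q₁ q₂ : ℕ, 1 ≤ q₁ → 1 ≤ q₂ → q₁ * q₂ ≤ K → q₁.Coprime q₂ →
      (∀ p : ℕ, p.Prime → P < p → p ∣ q₁ → p ^ 2 ∣ q₁) →
      (∀ p : ℕ, p.Prime → p ∣ q₂ → P < p) →
      wt C c q₁ ≤ 4 * ∑ D ∈ DD.filter (fun D => q₁ ∣ D ∧ q₂.Coprime D), ϖ D)
    (E : ℕ → ℝ) (hE : ∀ q, 0 ≤ E q) :
    ∑ q ∈ Finset.Icc 1 K, wt C c q * E q ≤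
      4 * ∑ D ∈ DD, ϖ D * ∑ q₂ ∈ (Finset.Icc 1 K).filter (fun q₂ => Squarefree q₂ ∧
        (∀ p ∈ q₂.primeFactors, P < p) ∧ q₂.Coprime D), wt C c q₂ *
          ∑ q₁ ∈ D.divisors.filter (fun q₁ => q₁ * q₂ ≤ K), E (q₁ * q₂) := by
  have hterm : ∀ q ∈ Finset.Icc 1 K, wt C c q * E q ≤
      4 * ∑ D ∈ DD, ϖ D * (if smoothPart P q ∣ D ∧ (roughPart P q).Coprime D then
        wt C c (roughPart P q) * E q else 0) := by
    intro q hq
    obtain ⟨hq1, hqK⟩ := Finset.mem_Icc.1 hq
    have hmul := smooth_mul_rough P q (by omega)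
    have h1 : 1 ≤ smoothPart P q := by
      rcases Nat.eq_zero_or_pos (smoothPart P q) with h | h
      · rw [h, zero_mul] at hmul; omega
      · exact h
    have h2 : 1 ≤ roughPart P q := by
      rcases Nat.eq_zero_or_pos (roughPart P q) with h | h
      · rw [h, mul_zero] at hmul; omega
      · exact h
    have hco := coprime_smooth_rough P q
    have hw : wt C c q = wt C c (smoothPart P q) * wt C c (roughPart P q) := by
      conv_lhs => rw [← hmul]
      exact wt_mul C c _ _ hco
    have hb := hDD (smoothPart P q) (roughPart P q) h1 h2 (by rw [hmul]; exact hqK) hco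
      (fun p hp hP hd => prime_dvd_smoothPart P q p hp hP hd)
      (fun p hp hd => prime_dvd_roughPart P q p hp hd)
    have hnn : 0 ≤ wt C c (roughPart P q) * E q := mul_nonneg (wt_nonneg C c hC _) (hE q)
    calc wt C c q * E q = wt C c (smoothPart P q) * (wt C c (roughPart P q) * E q) := by
          rw [hw]; ring
      _ ≤ (4 * ∑ D ∈ DD.filter (fun D => smoothPart P q ∣ D ∧ (roughPart P q).Coprime D), ϖ D) *
            (wt C c (roughPart P q) * E q) := mul_le_mul_of_nonneg_right hb hnn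
      _ = 4 * ∑ D ∈ DD, ϖ D * (if smoothPart P q ∣ D ∧ (roughPart P q).Coprime D then
            wt C c (roughPart P q) * E q else 0) := by
          rw [mul_assoc, Finset.sum_mul, Finset.sum_filter]
          congr 1
          refine Finset.sum_congr rfl fun D _ => ?_
          split_ifs <;> simp
  refine (Finset.sum_le_sum hterm).trans ?_
  rw [← Finset.mul_sum, Finset.sum_comm]
  refine mul_le_mul_of_nonneg_left (Finset.sum_le_sum fun D hD => ?_) (by norm_num)
  rw [← Finset.mul_sum]
  refine mul_le_mul_of_nonneg_left ?_ (hϖ D)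
  -- the inner inequality
  simp only [Finset.mul_sum]
  rw [Finset.sum_sigma', ← Finset.sum_filter]
  have hinj : Set.InjOn (fun q : ℕ => (⟨roughPart P q, smoothPart P q⟩ : (_ : ℕ) × ℕ))
      (((Finset.Icc 1 K).filter (fun q => smoothPart P q ∣ D ∧ (roughPart P q).Coprime D) :
        Finset ℕ) : Set ℕ) := by
    intro q hq q' hq' h
    have hq0 := (Finset.mem_Icc.1 (Finset.mem_filter.1 (Finset.mem_coe.1 hq)).1).1
    have hq0' := (Finset.mem_Icc.1 (Finset.mem_filter.1 (Finset.mem_coe.1 hq')).1).1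
    simp only [Sigma.mk.injEq, heq_eq_eq] at h
    rw [← smooth_mul_rough P q (by omega), ← smooth_mul_rough P q' (by omega), h.1, h.2]
  have himg : ∑ q ∈ (Finset.Icc 1 K).filter
      (fun q => smoothPart P q ∣ D ∧ (roughPart P q).Coprime D),
        wt C c (roughPart P q) * E q =
      ∑ x ∈ ((Finset.Icc 1 K).filter
        (fun q => smoothPart P q ∣ D ∧ (roughPart P q).Coprime D)).image
          (fun q : ℕ => (⟨roughPart P q, smoothPart P q⟩ : (_ : ℕ) × ℕ)),
        wt C c x.1 * E (x.2 * x.1) := by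
    rw [Finset.sum_image hinj]
    refine Finset.sum_congr rfl fun q hq => ?_
    have hq0 := (Finset.mem_Icc.1 (Finset.mem_filter.1 hq).1).1
    simp only
    rw [smooth_mul_rough P q (by omega)]
  rw [himg]
  refine Finset.sum_le_sum_of_subset_of_nonneg ?_ fun x _ _ =>
    mul_nonneg (wt_nonneg C c hC _) (hE _)
  intro x hx
  obtain ⟨q, hq, rfl⟩ := Finset.mem_image.1 hx
  obtain ⟨hqI, hdv, hcop⟩ := Finset.mem_filter.1 hq
  obtain ⟨hq1, hqK⟩ := Finset.mem_Icc.1 hqI
  have hmul := smooth_mul_rough P q (by omega)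
  have h2 : 1 ≤ roughPart P q := by
    rcases Nat.eq_zero_or_pos (roughPart P q) with h | h
    · rw [h, mul_zero] at hmul; omega
    · exact h
  have hle : roughPart P q ≤ K :=
    (Nat.le_of_dvd (by omega) (Dvd.intro_left _ hmul)).trans hqK
  refine Finset.mem_sigma.2 ⟨Finset.mem_filter.2 ⟨Finset.mem_Icc.2 ⟨h2, hle⟩,
    roughPart_squarefree P q, ?_, hcop⟩, ?_⟩
  · intro p hp
    exact prime_dvd_roughPart P q p (Nat.prime_of_mem_primeFactors hp)
      (Nat.dvd_of_mem_primeFactors hp)
  · refine Finset.mem_filter.2 ⟨Nat.mem_divisors.2 ⟨hdv, ?_⟩, ?_⟩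
    · have := hD1 D hD
      omega
    · simp only
      rw [hmul]
      exact hqK

end Vale.Agent.P042.UB
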