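import Vale.Agent.Lib.P042.UB.Defs

set_option autoImplicit false

namespace Vale.Agent.P042.UB

namespace Dv

section abs
variable {ι : Type*} [Fintype ι] [DecidableEq ι]

theorem sum_prod (J : ℕ) (k : ι → ℕ → ℝ) :
    ∑ e ∈ Fintype.piFinset (fun _ : ι => Finset.range (J + 1)), ∏ i, k i (e i) =
      ∏ i, ∑ j ∈ Finset.range (J + 1), k i j :=
  (Finset.prod_univ_sum _ _).symm

theorem sum_prod_mul (J : ℕ) (k : ι → ℕ → ℝ) (i : ι) (φ : ℕ → ℝ) :
    ∑ e ∈ Fintype.piFinset (fun _ : ι => Finset.range (J + 1)),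
        (∏ i', k i' (e i')) * φ (e i) =
      (∏ i' ∈ Finset.univ.erase i, ∑ j ∈ Finset.range (J + 1), k i' j) *
        ∑ j ∈ Finset.range (J + 1), k i j * φ j := by
  have h := sum_prod J (fun i' j => if i' = i then k i j * φ j else k i' j)
  have h1 : ∀ e : ι → ℕ, ∏ i', (if i' = i then k i (e i') * φ (e i') else k i' (e i')) =
      (∏ i', k i' (e i')) * φ (e i) := by
    intro e
    rw [← Finset.mul_prod_erase _ _ (Finset.mem_univ i),
      ← Finset.mul_prod_erase (Finset.univ) (fun i' => k i' (e i')) (Finset.mem_univ i)]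
    have h2 : ∏ x ∈ Finset.univ.erase i, (if x = i then k i (e x) * φ (e x) else k x (e x)) =
        ∏ x ∈ Finset.univ.erase i, k x (e x) := by
      refine Finset.prod_congr rfl fun x hx => ?_
      rw [if_neg (Finset.ne_of_mem_erase hx)]
    rw [h2, if_pos rfl]
    ring
  have h3 : ∏ i', ∑ j ∈ Finset.range (J + 1), (if i' = i then k i j * φ j else k i' j) =
      (∏ i' ∈ Finset.univ.erase i, ∑ j ∈ Finset.range (J + 1), k i' j) *
        ∑ j ∈ Finset.range (J + 1), k i j * φ j := by
    rw [← Finset.mul_prod_erase _ _ (Finset.mem_univ i)]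
    have h2 : ∏ x ∈ Finset.univ.erase i,
        ∑ j ∈ Finset.range (J + 1), (if x = i then k i j * φ j else k x j) =
        ∏ x ∈ Finset.univ.erase i, ∑ j ∈ Finset.range (J + 1), k x j := by
      refine Finset.prod_congr rfl fun x hx => Finset.sum_congr rfl fun j _ => ?_
      rw [if_neg (Finset.ne_of_mem_erase hx)]
    rw [h2]
    simp only [if_true]
    ring
  rw [← h3, ← h]
  refine Finset.sum_congr rfl fun e _ => ?_
  exact (h1 e).symm

theorem markov (J : ℕ) (μ : ι → ℕ → ℝ) (hμ : ∀ i j, 0 ≤ μ i j) (v : ι → ℕ) (T : Finset ι)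
    (w : ι → ℝ)
    (hw : ∀ i, ∑ j ∈ Finset.range (J + 1), (if v i ≤ j then μ i j else 0) = w i)
    (hT1 : ∀ i ∈ T, w i = 1)
    (hT2 : ∑ i ∈ T, (∑ j ∈ Finset.range (J + 1),
      (if v i ≤ j then μ i j else 0) * (if j = 0 then 0 else 1)) ≤ 1 / 2)
    (ℓ : ι → ℝ) (hℓ : ∀ i, 0 ≤ ℓ i) (b : ι → ℝ)
    (hb : ∀ i, ∑ j ∈ Finset.range (J + 1), (if v i ≤ j then μ i j else 0) * (j : ℝ) ≤ b i * w i)
    (L : ℝ) (hL : 0 < L) (hL' : 4 * ∑ i, ℓ i * b i ≤ L) :
    ∏ i, w i ≤ 4 * ∑ e ∈ (Fintype.piFinset (fun _ : ι => Finset.range (J + 1))).filter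
      (fun e => (∀ i, v i ≤ e i) ∧ (∀ i ∈ T, e i = 0) ∧ ∑ i, ℓ i * (e i : ℝ) ≤ L),
        ∏ i, μ i (e i) := by
  classical
  set E := Fintype.piFinset (fun _ : ι => Finset.range (J + 1)) with hE
  set h : ι → ℕ → ℝ := fun i j => if v i ≤ j then μ i j else 0 with hh
  have hh0 : ∀ i j, 0 ≤ h i j := by
    intro i j; simp only [hh]; split_ifs; exacts [hμ i j, le_rfl]
  have hw0 : ∀ i, 0 ≤ w i := by
    intro i; rw [← hw i]; exact Finset.sum_nonneg fun j _ => hh0 i j
  have hp0 : ∀ e : ι → ℕ, 0 ≤ ∏ i, h i (e i) := fun e => Finset.prod_nonneg fun i _ => hh0 i _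
  have hm0 : ∀ e : ι → ℕ, 0 ≤ ∏ i, μ i (e i) := fun e => Finset.prod_nonneg fun i _ => hμ i _
  set W := ∏ i, w i with hW
  have hW0 : 0 ≤ W := Finset.prod_nonneg fun i _ => hw0 i
  have hsum : ∑ e ∈ E, ∏ i, h i (e i) = W := by
    rw [hE, sum_prod J h]
    exact Finset.prod_congr rfl fun i _ => hw i
  have hpt : ∀ e ∈ E, ∏ i, h i (e i) ≤
      (if ((∀ i, v i ≤ e i) ∧ (∀ i ∈ T, e i = 0) ∧ ∑ i, ℓ i * (e i : ℝ) ≤ L) then
        ∏ i, μ i (e i) else 0) +
      ∑ i ∈ T, (∏ i', h i' (e i')) * (if e i = 0 then 0 else 1) +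
      L⁻¹ * ∑ i, ℓ i * ((∏ i', h i' (e i')) * (e i : ℝ)) := by
    intro e _
    have t1 : 0 ≤ (if ((∀ i, v i ≤ e i) ∧ (∀ i ∈ T, e i = 0) ∧
        ∑ i, ℓ i * (e i : ℝ) ≤ L) then ∏ i, μ i (e i) else 0) := by
      split_ifs; exacts [hm0 e, le_rfl]
    have t2 : 0 ≤ ∑ i ∈ T, (∏ i', h i' (e i')) * (if e i = 0 then (0 : ℝ) else 1) :=
      Finset.sum_nonneg fun i _ => mul_nonneg (hp0 e) (by split_ifs <;> norm_num)
    have t3 : 0 ≤ L⁻¹ * ∑ i, ℓ i * ((∏ i', h i' (e i')) * (e i : ℝ)) :=
      mul_nonneg (inv_nonneg.2 hL.le) (Finset.sum_nonneg fun i _ =>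
        mul_nonneg (hℓ i) (mul_nonneg (hp0 e) (Nat.cast_nonneg _)))
    by_cases c1 : ∀ i, v i ≤ e i
    · have e1 : ∏ i, h i (e i) = ∏ i, μ i (e i) :=
        Finset.prod_congr rfl fun i _ => by simp only [hh]; rw [if_pos (c1 i)]
      by_cases c2 : ∀ i ∈ T, e i = 0
      · by_cases c3 : ∑ i, ℓ i * (e i : ℝ) ≤ L
        · rw [if_pos ⟨c1, c2, c3⟩]; rw [e1] at t2 t3 ⊢; linarith
        · push Not at c3
          have : ∏ i, h i (e i) ≤ L⁻¹ * ∑ i, ℓ i * ((∏ i', h i' (e i')) * (e i : ℝ)) := by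
            have e2 : ∑ i, ℓ i * ((∏ i', h i' (e i')) * (e i : ℝ)) =
                (∏ i', h i' (e i')) * ∑ i, ℓ i * (e i : ℝ) := by
              rw [Finset.mul_sum]; exact Finset.sum_congr rfl fun i _ => by ring
            rw [e2, ← mul_assoc, mul_comm L⁻¹, mul_assoc]
            refine le_mul_of_one_le_right (hp0 e) ?_
            rw [inv_mul_eq_div, one_le_div hL]
            exact c3.le
          linarith
      · push Not at c2
        obtain ⟨i, hi, hi0⟩ := c2
        have : ∏ i', h i' (e i') ≤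
            ∑ i ∈ T, (∏ i', h i' (e i')) * (if e i = 0 then (0 : ℝ) else 1) := by
          have := Finset.single_le_sum (f := fun i => (∏ i', h i' (e i')) *
            (if e i = 0 then (0 : ℝ) else 1)) (fun i _ => mul_nonneg (hp0 e)
              (by split_ifs <;> norm_num)) hi
          simpa [hi0] using this
        linarith
    · push Not at c1
      obtain ⟨i, hi⟩ := c1
      have : ∏ i, h i (e i) = 0 := Finset.prod_eq_zero (Finset.mem_univ i) (by
        simp only [hh]; rw [if_neg (by omega)])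
      linarith
  have htot := Finset.sum_le_sum hpt
  rw [hsum, Finset.sum_add_distrib, Finset.sum_add_distrib, ← Finset.sum_filter,
    Finset.sum_comm] at htot
  have s2 : ∑ i ∈ T, ∑ e ∈ E, (∏ i', h i' (e i')) * (if e i = 0 then (0 : ℝ) else 1) ≤
      W / 2 := by
    have : ∀ i ∈ T, ∑ e ∈ E, (∏ i', h i' (e i')) * (if e i = 0 then (0 : ℝ) else 1) =
        W * ∑ j ∈ Finset.range (J + 1), h i j * (if j = 0 then 0 else 1) := by
      intro i hi
      rw [hE, sum_prod_mul J h i (fun j => if j = 0 then 0 else 1)]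
      congr 1
      rw [hW, ← Finset.mul_prod_erase _ _ (Finset.mem_univ i), hT1 i hi, one_mul]
      exact Finset.prod_congr rfl fun i' _ => hw i'
    rw [Finset.sum_congr rfl this, ← Finset.mul_sum]
    nlinarith
  have s3 : ∑ e ∈ E, L⁻¹ * ∑ i, ℓ i * ((∏ i', h i' (e i')) * (e i : ℝ)) ≤ W / 4 := by
    rw [← Finset.mul_sum, Finset.sum_comm]
    have : ∀ i, ∑ e ∈ E, ℓ i * ((∏ i', h i' (e i')) * (e i : ℝ)) ≤ ℓ i * b i * W := by
      intro i
      rw [← Finset.mul_sum, hE, sum_prod_mul J h i (fun j => (j : ℝ))]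
      rw [mul_assoc (ℓ i)]
      refine mul_le_mul_of_nonneg_left ?_ (hℓ i)
      have e1 : ∏ i' ∈ Finset.univ.erase i, ∑ j ∈ Finset.range (J + 1), h i' j =
          ∏ i' ∈ Finset.univ.erase i, w i' := Finset.prod_congr rfl fun i' _ => hw i'
      rw [e1, hW, ← Finset.mul_prod_erase _ _ (Finset.mem_univ i)]
      calc (∏ i' ∈ Finset.univ.erase i, w i') * ∑ j ∈ Finset.range (J + 1), h i j * (j : ℝ)
          ≤ (∏ i' ∈ Finset.univ.erase i, w i') * (b i * w i) :=
            mul_le_mul_of_nonneg_left (hb i) (Finset.prod_nonneg fun i' _ => hw0 i')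
        _ = _ := by ring
    calc L⁻¹ * ∑ i, ∑ e ∈ E, ℓ i * ((∏ i', h i' (e i')) * (e i : ℝ))
        ≤ L⁻¹ * ∑ i, ℓ i * b i * W := mul_le_mul_of_nonneg_left
          (Finset.sum_le_sum fun i _ => this i) (inv_nonneg.2 hL.le)
      _ = L⁻¹ * (∑ i, ℓ i * b i) * W := by rw [← Finset.sum_mul, mul_assoc]
      _ ≤ L⁻¹ * (L / 4) * W := by
          refine mul_le_mul_of_nonneg_right (mul_le_mul_of_nonneg_left (by linarith)
            (inv_nonneg.2 hL.le)) hW0
      _ = W / 4 := by field_simp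
  linarith

end abs

/-- Abel summation. -/
theorem abel (π : ℕ → ℝ) (v n : ℕ) (h : v ≤ n) :
    ∑ j ∈ Finset.Icc v n, (π j - π (j + 1)) * (j : ℝ) =
      v * π v + ∑ j ∈ Finset.Ioc v n, π j - n * π (n + 1) := by
  induction n, h using Nat.le_induction with
  | base => simp; ring
  | succ n hn ih =>
    rw [Finset.sum_Icc_succ_top (by omega), ih, Finset.sum_Ioc_succ_top hn]
    push_cast
    ring

theorem telescope (π : ℕ → ℝ) (v n : ℕ) (h : v ≤ n) :
    ∑ j ∈ Finset.Icc v n, (π j - π (j + 1)) = π v - π (n + 1) := by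
  induction n, h using Nat.le_induction with
  | base => simp
  | succ n hn ih =>
    rw [Finset.sum_Icc_succ_top (by omega), ih]
    ring

/-- `∑_{p ≤ n} (log p) / p ≤ 2 log n`. -/
theorem sum_log_div_le (n : ℕ) (hn : 1 ≤ n) :
    ∑ p ∈ (Finset.range (n + 1)).filter Nat.Prime, Real.log p / p ≤ 2 * Real.log n := by
  have h1 : (∏ p ∈ (Finset.range (n + 1)).filter Nat.Prime, p ^ (n / p)) ∣ n.factorial := by
    refine Finset.prod_dvd_of_isRelPrime ?_ ?_
    rotate_left
    · intro p hp
      have hpp := (Finset.mem_filter.mp hp).2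
      rw [hpp.pow_dvd_factorial_iff (b := Nat.log p n + 1) (Nat.lt_succ_self _)]
      have hpn : p ≤ n := by
        have := Finset.mem_range.mp (Finset.mem_filter.mp hp).1; omega
      have hlog := Nat.log_pos hpp.one_lt hpn
      have h1m : 1 ∈ Finset.Ico 1 (Nat.log p n + 1) := by
        rw [Finset.mem_Ico]; omega
      have := Finset.single_le_sum (f := fun i => n / p ^ i)
        (fun i _ => Nat.zero_le _) h1m
      simpa using this
    · intro p hp q hq hpq
      have hpp := (Finset.mem_filter.mp hp).2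
      have hqp := (Finset.mem_filter.mp hq).2
      exact Nat.coprime_iff_isRelPrime.mp
        (Nat.Coprime.pow _ _ ((Nat.coprime_primes hpp hqp).mpr hpq))
  have h2 : (∏ p ∈ (Finset.range (n + 1)).filter Nat.Prime, p ^ (n / p)) ≤ n ^ n :=
    (Nat.le_of_dvd n.factorial_pos h1).trans (Nat.factorial_le_pow n)
  have h3 : Real.log ((∏ p ∈ (Finset.range (n + 1)).filter Nat.Prime, p ^ (n / p) : ℕ) : ℝ) ≤
      Real.log ((n ^ n : ℕ) : ℝ) := by
    refine Real.log_le_log ?_ (by exact_mod_cast h2)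
    have : 0 < ∏ p ∈ (Finset.range (n + 1)).filter Nat.Prime, p ^ (n / p) := by
      refine Finset.prod_pos fun p hp => ?_
      have hpp : Nat.Prime p := (Finset.mem_filter.mp hp).2
      exact pow_pos hpp.pos _
    exact_mod_cast this
  rw [Nat.cast_pow, Real.log_pow, Nat.cast_prod, Real.log_prod] at h3
  swap
  · intro p hp
    have hpp : Nat.Prime p := (Finset.mem_filter.mp hp).2
    have h := hpp.pos
    positivity
  have hn0 : (0 : ℝ) < n := by exact_mod_cast hn
  have h4 : ∀ p ∈ (Finset.range (n + 1)).filter Nat.Prime,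
      (n : ℝ) * (Real.log p / p) ≤ 2 * Real.log ((p ^ (n / p) : ℕ) : ℝ) := by
    intro p hp
    have hpp := (Finset.mem_filter.mp hp).2
    have hpn : p ≤ n := by
      have := Finset.mem_range.mp (Finset.mem_filter.mp hp).1; omega
    have hp0 : (0 : ℝ) < p := by exact_mod_cast hpp.pos
    have hl : 0 ≤ Real.log p := Real.log_natCast_nonneg p
    rw [Nat.cast_pow, Real.log_pow]
    have h5 : (n : ℝ) / p ≤ 2 * (n / p : ℕ) := by
      have h6 : 1 ≤ n / p := (Nat.one_le_div_iff hpp.pos).mpr hpn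
      have h7 : n < p * (n / p + 1) := Nat.lt_mul_div_succ n hpp.pos
      have h8 : (n : ℝ) < p * ((n / p : ℕ) + 1) := by exact_mod_cast h7
      have h9 : (1 : ℝ) ≤ (n / p : ℕ) := by exact_mod_cast h6
      rw [div_le_iff₀ hp0]
      nlinarith
    calc (n : ℝ) * (Real.log p / p) = n / p * Real.log p := by ring
      _ ≤ 2 * (n / p : ℕ) * Real.log p := mul_le_mul_of_nonneg_right h5 hl
      _ = _ := by ring
  have h5 := Finset.sum_le_sum h4
  rw [← Finset.mul_sum, ← Finset.mul_sum] at h5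
  have h6 : (n : ℝ) * ∑ p ∈ (Finset.range (n + 1)).filter Nat.Prime, Real.log p / p ≤
      n * (2 * Real.log n) := by linarith
  exact le_of_mul_le_mul_left h6 hn0

/-- `∑_{p ≤ n} (log p) / √p ≤ 8 √n`. -/
theorem sum_log_div_sqrt_le (n : ℕ) :
    ∑ p ∈ (Finset.range (n + 1)).filter Nat.Prime, Real.log p / Real.sqrt p ≤
      4 * Real.log 4 * Real.sqrt n := by
  induction n using Nat.strong_induction_on with
  | _ n ih =>
    rcases Nat.eq_zero_or_pos n with h0 | hpos
    · subst h0
      have : (Finset.range (0 + 1)).filter Nat.Prime = ∅ := by decide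
      rw [this]; simp
    have hlt : n / 4 < n := Nat.div_lt_self hpos (by norm_num)
    have h1 := ih (n / 4) hlt
    have hn0 : (0 : ℝ) < n := by exact_mod_cast hpos
    have hs : 0 < Real.sqrt n := Real.sqrt_pos.mpr hn0
    have h2 : ∑ p ∈ (Finset.range (n + 1)).filter Nat.Prime, Real.log p / Real.sqrt p ≤
        ∑ p ∈ (Finset.range (n / 4 + 1)).filter Nat.Prime, Real.log p / Real.sqrt p +
        ∑ p ∈ (Finset.range (n + 1)).filter Nat.Prime, Real.log p * (2 / Real.sqrt n) := by
      have hsub : (Finset.range (n / 4 + 1)).filter Nat.Prime ⊆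
          (Finset.range (n + 1)).filter Nat.Prime := by
        intro p hp
        simp only [Finset.mem_filter, Finset.mem_range] at hp ⊢
        exact ⟨by omega, hp.2⟩
      rw [← Finset.sum_sdiff hsub, add_comm]
      refine add_le_add le_rfl ?_
      calc ∑ p ∈ (Finset.range (n + 1)).filter Nat.Prime \
            (Finset.range (n / 4 + 1)).filter Nat.Prime, Real.log p / Real.sqrt p
          ≤ ∑ p ∈ (Finset.range (n + 1)).filter Nat.Prime \
            (Finset.range (n / 4 + 1)).filter Nat.Prime, Real.log p * (2 / Real.sqrt n) := by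
            refine Finset.sum_le_sum fun p hp => ?_
            simp only [Finset.mem_sdiff, Finset.mem_filter, Finset.mem_range] at hp
            have hpp := hp.1.2
            have h4 : n / 4 < p := by
              by_contra hc
              exact hp.2 ⟨by omega, hpp⟩
            have h5 : n < 4 * p := by omega
            have h5' : (n : ℝ) ≤ 4 * p := by exact_mod_cast h5.le
            rw [div_eq_mul_inv]
            refine mul_le_mul_of_nonneg_left ?_ (Real.log_natCast_nonneg p)
            have hp0 : (0 : ℝ) < p := by exact_mod_cast hpp.pos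
            have hsp : 0 < Real.sqrt p := Real.sqrt_pos.mpr hp0
            have h6 : Real.sqrt n ≤ 2 * Real.sqrt p := by
              have : Real.sqrt n ≤ Real.sqrt (4 * p) := Real.sqrt_le_sqrt h5'
              rwa [Real.sqrt_mul (by norm_num), show (4 : ℝ) = 2 ^ 2 by norm_num,
                Real.sqrt_sq (by norm_num)] at this
            rw [inv_eq_one_div, div_le_div_iff₀ hsp hs]
            linarith
        _ ≤ _ := Finset.sum_le_sum_of_subset_of_nonneg Finset.sdiff_subset fun p _ _ =>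
            mul_nonneg (Real.log_natCast_nonneg p) (by positivity)
    have h3 : ∑ p ∈ (Finset.range (n + 1)).filter Nat.Prime, Real.log p ≤ Real.log 4 * n := by
      have h5 := primorial_le_four_pow n
      have h6 : Real.log ((primorial n : ℕ) : ℝ) ≤ Real.log ((4 ^ n : ℕ) : ℝ) := by
        refine Real.log_le_log ?_ (by exact_mod_cast h5)
        exact_mod_cast primorial_pos n
      unfold primorial at h6
      rw [Nat.cast_prod, Real.log_prod, Nat.cast_pow, Real.log_pow] at h6
      swap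
      · intro p hp
        have hpp : Nat.Prime p := (Finset.mem_filter.mp hp).2
        have h := hpp.pos
        positivity
      push_cast at h6
      linarith
    rw [← Finset.sum_mul] at h2
    have h4 : Real.sqrt ((n / 4 : ℕ) : ℝ) ≤ Real.sqrt n / 2 := by
      have h5 : ((n / 4 : ℕ) : ℝ) ≤ n / 4 := Nat.cast_div_le
      have h6 : Real.sqrt ((n / 4 : ℕ) : ℝ) ≤ Real.sqrt (n / 4) := Real.sqrt_le_sqrt h5
      rwa [Real.sqrt_div' _ (by norm_num), show (4 : ℝ) = 2 ^ 2 by norm_num,
        Real.sqrt_sq (by norm_num)] at h6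
    have hl4 : 0 < Real.log 4 := Real.log_pos (by norm_num)
    have h7 : (∑ p ∈ (Finset.range (n + 1)).filter Nat.Prime, Real.log p) * (2 / Real.sqrt n) ≤
        2 * Real.log 4 * Real.sqrt n := by
      calc (∑ p ∈ (Finset.range (n + 1)).filter Nat.Prime, Real.log p) * (2 / Real.sqrt n)
          ≤ (Real.log 4 * n) * (2 / Real.sqrt n) :=
            mul_le_mul_of_nonneg_right h3 (by positivity)
        _ = 2 * Real.log 4 * (n / Real.sqrt n) := by ring
        _ = _ := by rw [Real.div_sqrt]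
    have h8 : 4 * Real.log 4 * Real.sqrt ((n / 4 : ℕ) : ℝ) ≤ 4 * Real.log 4 * (Real.sqrt n / 2) :=
      mul_le_mul_of_nonneg_left h4 (by positivity)
    calc _ ≤ _ := h2
      _ ≤ 4 * Real.log 4 * (Real.sqrt n / 2) + 2 * Real.log 4 * Real.sqrt n :=
        add_le_add (h1.trans h8) h7
      _ = _ := by ring

/-! ### the weights -/

/-- `1/√p` for `p ≤ P`, `1/p` otherwise -/
noncomputable def av (P p : ℕ) : ℝ := if p ≤ P then 1 / Real.sqrt p else 1 / p

/-- the basic tail -/
noncomputable def mm (c : ℝ) (P p j : ℕ) : ℝ := min (av P p) ((p : ℝ) ^ (-(c * j)))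

/-- the tail probabilities -/
noncomputable def pp (C c : ℝ) (P J p j : ℕ) : ℝ :=
  if j = 0 then 1 else if j ≤ J then min 1 (C * mm c P p j) else 0

section tails
variable {C c : ℝ} {P J p : ℕ}

theorem sqrt_le_self_nat (hp : 2 ≤ p) : Real.sqrt p ≤ p := by
  have h1 : (1 : ℝ) ≤ p := by exact_mod_cast (by omega : 1 ≤ p)
  rw [Real.sqrt_le_left (by linarith)]
  nlinarith

theorem inv_le_av (hp : 2 ≤ p) : 1 / (p : ℝ) ≤ av P p := by
  have hp0 : (0 : ℝ) < p := by exact_mod_cast (by omega : 0 < p)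
  unfold av
  split_ifs
  · exact one_div_le_one_div_of_le (Real.sqrt_pos.mpr hp0) (sqrt_le_self_nat hp)
  · exact le_rfl

theorem av_pos (hp : 2 ≤ p) : 0 < av P p := by
  have hp0 : (0 : ℝ) < p := by exact_mod_cast (by omega : 0 < p)
  exact lt_of_lt_of_le (by positivity) (inv_le_av hp)

theorem av_le_one (hp : 2 ≤ p) : av P p ≤ 1 := by
  have h1 : (1 : ℝ) ≤ p := by exact_mod_cast (by omega : 1 ≤ p)
  have hp0 : (0 : ℝ) < p := by linarith
  unfold av
  split_ifs
  · rw [div_le_one (Real.sqrt_pos.mpr hp0)]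
    exact Real.one_le_sqrt.mpr h1
  · rw [div_le_one hp0]; exact h1

theorem mm_pos (hp : 2 ≤ p) (j : ℕ) : 0 < mm c P p j := by
  have hp0 : (0 : ℝ) < p := by exact_mod_cast (by omega : 0 < p)
  exact lt_min (av_pos hp) (Real.rpow_pos_of_pos hp0 _)

theorem mm_le_one (hp : 2 ≤ p) (j : ℕ) : mm c P p j ≤ 1 := (min_le_left _ _).trans (av_le_one hp)

theorem mm_anti (hc : 0 < c) (hp : 2 ≤ p) {i j : ℕ} (hij : i ≤ j) :
    mm c P p j ≤ mm c P p i := by
  unfold mm
  refine min_le_min le_rfl ?_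
  have h1 : (1 : ℝ) ≤ p := by exact_mod_cast (by omega : 1 ≤ p)
  refine Real.rpow_le_rpow_of_exponent_le h1 ?_
  have : (i : ℝ) ≤ j := by exact_mod_cast hij
  nlinarith

theorem mm_add_le (hc : 0 < c) (hp : 2 ≤ p) (v i : ℕ) :
    mm c P p (v + i) ≤ 2 * ((2 : ℝ) ^ (-c)) ^ i * mm c P p v := by
  have h2p : (2 : ℝ) ≤ p := by exact_mod_cast hp
  have hp0 : (0 : ℝ) < p := by linarith
  have e0 : 2 * ((2 : ℝ) ^ (-c)) ^ i = (2 : ℝ) ^ (1 - c * i) := by
    rw [← Real.rpow_natCast, ← Real.rpow_mul (by norm_num), sub_eq_add_neg,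
      Real.rpow_add (by norm_num), Real.rpow_one]
    congr 2; ring
  rw [e0]
  by_cases h : c * i < 1
  · have h1 : (1 : ℝ) ≤ (2 : ℝ) ^ (1 - c * i) := Real.one_le_rpow (by norm_num) (by linarith)
    calc mm c P p (v + i) ≤ mm c P p v := mm_anti hc hp (by omega)
      _ = 1 * mm c P p v := (one_mul _).symm
      _ ≤ _ := mul_le_mul_of_nonneg_right h1 (mm_pos hp v).le
  · push Not at h
    have h1 : mm c P p (v + i) ≤ (p : ℝ) ^ (-(c * (v + i : ℕ))) := min_le_right _ _
    have e1 : (p : ℝ) ^ (-(c * (v + i : ℕ))) =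
        (p : ℝ) ^ (-(c * v)) * (1 / p) * (p : ℝ) ^ (1 - c * i) := by
      rw [one_div, ← Real.rpow_neg_one, ← Real.rpow_add hp0, ← Real.rpow_add hp0]
      congr 1; push_cast; ring
    have h2 : (p : ℝ) ^ (1 - c * i) ≤ (2 : ℝ) ^ (1 - c * i) :=
      Real.rpow_le_rpow_of_nonpos (by norm_num) h2p (by linarith)
    have h3 : (p : ℝ) ^ (-(c * v)) ≤ 1 := Real.rpow_le_one_of_one_le_of_nonpos (by linarith)
      (by have : (0 : ℝ) ≤ v := Nat.cast_nonneg v
          nlinarith)
    have h3' : 0 < (p : ℝ) ^ (-(c * v)) := Real.rpow_pos_of_pos hp0 _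
    have h4 : (p : ℝ) ^ (-(c * v)) * (1 / p) ≤ mm c P p v := by
      refine le_min ?_ ?_
      · calc (p : ℝ) ^ (-(c * v)) * (1 / p) ≤ 1 * (1 / p) :=
              mul_le_mul_of_nonneg_right h3 (by positivity)
          _ = 1 / p := one_mul _
          _ ≤ _ := inv_le_av hp
      · refine mul_le_of_le_one_right h3'.le ?_
        rw [div_le_one hp0]; linarith
    calc mm c P p (v + i) ≤ _ := h1
      _ = _ := e1
      _ ≤ mm c P p v * (2 : ℝ) ^ (1 - c * i) :=
        mul_le_mul h4 h2 (Real.rpow_pos_of_pos hp0 _).le (mm_pos hp v).le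
      _ = _ := mul_comm _ _

theorem sum_mm_le (hc : 0 < c) (hp : 2 ≤ p) (v J : ℕ) :
    ∑ j ∈ Finset.Ioc v J, mm c P p j ≤ 2 / (1 - (2 : ℝ) ^ (-c)) * mm c P p v := by
  set r : ℝ := (2 : ℝ) ^ (-c) with hr
  have hr0 : 0 < r := Real.rpow_pos_of_pos (by norm_num) _
  have hr1 : r < 1 := Real.rpow_lt_one_of_one_lt_of_neg (by norm_num) (by linarith)
  have h1 : ∀ j ∈ Finset.Ioc v J, mm c P p j ≤ 2 * mm c P p v * r ^ (j - v) := by
    intro j hj
    rw [Finset.mem_Ioc] at hj
    have := mm_add_le (P := P) hc hp v (j - v)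
    rw [Nat.add_sub_cancel' hj.1.le] at this
    refine this.trans (le_of_eq ?_)
    ring
  refine (Finset.sum_le_sum h1).trans ?_
  rw [← Finset.mul_sum]
  have h2 : ∑ j ∈ Finset.Ioc v J, r ^ (j - v) ≤ (1 - r)⁻¹ := by
    have hinj : Set.InjOn (fun j => j - v) (Finset.Ioc v J : Set ℕ) := by
      intro a ha b hb hab
      simp only [Finset.coe_Ioc, Set.mem_Ioc] at ha hb hab
      omega
    rw [← Finset.sum_image (f := fun i => r ^ i) (g := fun j => j - v) hinj]
    exact Summable.sum_le_tsum _ (fun i _ => by positivity)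
      (summable_geometric_of_lt_one hr0.le hr1) |>.trans
      (le_of_eq (tsum_geometric_of_lt_one hr0.le hr1))
  calc 2 * mm c P p v * ∑ j ∈ Finset.Ioc v J, r ^ (j - v)
      ≤ 2 * mm c P p v * (1 - r)⁻¹ :=
        mul_le_mul_of_nonneg_left h2 (mul_nonneg (by norm_num) (mm_pos hp v).le)
    _ = _ := by ring

theorem pp_zero : pp C c P J p 0 = 1 := by simp [pp]

theorem pp_top : pp C c P J p (J + 1) = 0 := by simp [pp]

theorem pp_nonneg (hC : 1 ≤ C) (hp : 2 ≤ p) (j : ℕ) : 0 ≤ pp C c P J p j := by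
  unfold pp
  split_ifs
  · norm_num
  · exact le_min (by norm_num) (mul_nonneg (by linarith) (mm_pos hp j).le)
  · exact le_rfl

theorem pp_succ_le (hC : 1 ≤ C) (hc : 0 < c) (hp : 2 ≤ p) (j : ℕ) :
    pp C c P J p (j + 1) ≤ pp C c P J p j := by
  by_cases h0 : j = 0
  · subst h0
    rw [pp_zero]
    unfold pp
    rw [if_neg (by omega)]
    split_ifs
    · exact min_le_left _ _
    · norm_num
  · by_cases h1 : j + 1 ≤ J
    · unfold pp
      rw [if_neg (by omega), if_pos h1, if_neg h0, if_pos (by omega)]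
      exact min_le_min le_rfl (mul_le_mul_of_nonneg_left (mm_anti hc hp (by omega)) (by linarith))
    · have : pp C c P J p (j + 1) = 0 := by
        unfold pp; rw [if_neg (by omega), if_neg h1]
      rw [this]
      exact pp_nonneg hC hp j

theorem pp_le_mm (hC : 1 ≤ C) (hp : 2 ≤ p) {j : ℕ} (hj : 1 ≤ j) :
    pp C c P J p j ≤ C * mm c P p j := by
  unfold pp
  rw [if_neg (by omega)]
  split_ifs
  · exact min_le_right _ _
  · exact mul_nonneg (by linarith) (mm_pos hp j).le

theorem mm_le_pp (hC : 1 ≤ C) (hp : 2 ≤ p) {j : ℕ} (hj : 1 ≤ j) (hJ : j ≤ J) :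
    mm c P p j ≤ pp C c P J p j := by
  unfold pp
  rw [if_neg (by omega), if_pos hJ]
  refine le_min (mm_le_one hp j) ?_
  have := (mm_pos (c := c) (P := P) hp j).le
  nlinarith

/-- the point masses -/
noncomputable def mu (C c : ℝ) (P J p j : ℕ) : ℝ := pp C c P J p j - pp C c P J p (j + 1)

theorem mu_nonneg (hC : 1 ≤ C) (hc : 0 < c) (hp : 2 ≤ p) (j : ℕ) : 0 ≤ mu C c P J p j :=
  sub_nonneg.mpr (pp_succ_le hC hc hp j)

theorem sum_filter_eq (f : ℕ → ℝ) (v J : ℕ) :
    ∑ j ∈ Finset.range (J + 1), (if v ≤ j then f j else 0) = ∑ j ∈ Finset.Icc v J, f j := by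
  rw [← Finset.sum_filter]
  refine Finset.sum_congr ?_ fun _ _ => rfl
  ext j
  simp only [Finset.mem_filter, Finset.mem_range, Finset.mem_Icc]
  omega

theorem sum_mu {v : ℕ} (hv : v ≤ J) :
    ∑ j ∈ Finset.range (J + 1), (if v ≤ j then mu C c P J p j else 0) = pp C c P J p v := by
  rw [sum_filter_eq]
  unfold mu
  rw [telescope _ v J hv, pp_top, sub_zero]

theorem sum_mu_mul (hC : 1 ≤ C) (hc : 0 < c) (hp : 2 ≤ p) {v : ℕ} (hv : v ≤ J) :
    ∑ j ∈ Finset.range (J + 1), (if v ≤ j then mu C c P J p j else 0) * (j : ℝ) ≤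
      (C * (2 / (1 - (2 : ℝ) ^ (-c))) * av P p + (1 + C * (2 / (1 - (2 : ℝ) ^ (-c)))) * v) *
        pp C c P J p v := by
  set C2 := 2 / (1 - (2 : ℝ) ^ (-c)) with hC2
  have hr1 : (2 : ℝ) ^ (-c) < 1 := Real.rpow_lt_one_of_one_lt_of_neg (by norm_num) (by linarith)
  have hC20 : 0 < C2 := div_pos (by norm_num) (by linarith)
  have e1 : ∑ j ∈ Finset.range (J + 1), (if v ≤ j then mu C c P J p j else 0) * (j : ℝ) =
      ∑ j ∈ Finset.Icc v J, (pp C c P J p j - pp C c P J p (j + 1)) * (j : ℝ) := by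
    rw [← sum_filter_eq]
    refine Finset.sum_congr rfl fun j _ => ?_
    split_ifs
    · rfl
    · simp
  rw [e1, abel _ v J hv, pp_top, mul_zero, sub_zero]
  have h1 : ∑ j ∈ Finset.Ioc v J, pp C c P J p j ≤ C * C2 * mm c P p v := by
    calc ∑ j ∈ Finset.Ioc v J, pp C c P J p j ≤ ∑ j ∈ Finset.Ioc v J, C * mm c P p j :=
          Finset.sum_le_sum fun j hj => pp_le_mm hC hp (by
            rw [Finset.mem_Ioc] at hj; omega)
      _ = C * ∑ j ∈ Finset.Ioc v J, mm c P p j := by rw [Finset.mul_sum]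
      _ ≤ C * (C2 * mm c P p v) := mul_le_mul_of_nonneg_left (sum_mm_le hc hp v J) (by linarith)
      _ = _ := by ring
  have hCC : 0 < C * C2 := mul_pos (by linarith) hC20
  rcases Nat.eq_zero_or_pos v with h0 | hpos
  · subst h0
    rw [pp_zero]
    have h2 : mm c P p 0 ≤ av P p := min_le_left _ _
    push_cast
    nlinarith
  · have h2 := mm_le_pp (P := P) (c := c) hC hp hpos hv
    have h3 : (1 : ℝ) ≤ v := by exact_mod_cast hpos
    have h4 := pp_nonneg (c := c) (P := P) (J := J) hC hp v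
    have h5 := (av_pos (P := P) hp).le
    have h6 : C * C2 * mm c P p v ≤ C * C2 * v * pp C c P J p v := by
      calc C * C2 * mm c P p v ≤ C * C2 * pp C c P J p v := mul_le_mul_of_nonneg_left h2 hCC.le
        _ = C * C2 * 1 * pp C c P J p v := by ring
        _ ≤ _ := mul_le_mul_of_nonneg_right (mul_le_mul_of_nonneg_left h3 hCC.le) h4
    have h7 : 0 ≤ C * C2 * av P p * pp C c P J p v := by positivity
    nlinarith

theorem om_le_pp (hC : 1 ≤ C) (hp : 2 ≤ p) {v : ℕ} (hv : 1 ≤ v)
    (hJ : v ≤ J) (hP : P < p → 2 ≤ v) : om C c p v ≤ pp C c P J p v := by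
  have hp0 : (0 : ℝ) < p := by exact_mod_cast (by omega : 0 < p)
  unfold om
  have e0 : pp C c P J p v = min 1 (C * mm c P p v) := by
    unfold pp
    rw [if_neg (by omega), if_pos hJ]
  rw [e0]
  refine min_le_min le_rfl ?_
  unfold mm
  rw [mul_min_of_nonneg _ _ (by linarith : (0 : ℝ) ≤ C), min_comm]
  refine min_le_min ?_ le_rfl
  unfold av
  by_cases h : p ≤ P
  · rw [if_pos h]
    split_ifs
    · rw [mul_one_div]
    · rw [mul_one_div]
      exact div_le_div_of_nonneg_left (by linarith) (Real.sqrt_pos.mpr hp0) (sqrt_le_self_nat hp)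
  · rw [if_neg h, if_neg (by have := hP (by omega); omega), mul_one_div]

end tails

/-! ### the divisors -/

section divisors
variable (K : ℕ)

/-- the primes up to `K` -/
def prs (K : ℕ) : Finset ℕ := (Finset.range (K + 1)).filter Nat.Prime

variable {K}

theorem prs_prime (i : prs K) : (i : ℕ).Prime := (Finset.mem_filter.mp i.2).2

theorem mem_prs {p : ℕ} : p ∈ prs K ↔ p ≤ K ∧ p.Prime := by
  unfold prs
  rw [Finset.mem_filter, Finset.mem_range]
  constructor
  · exact fun h => ⟨by omega, h.2⟩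
  · exact fun h => ⟨by omega, h.2⟩

/-- the number with given exponents -/
def num (e : prs K → ℕ) : ℕ := ∏ i : prs K, (i : ℕ) ^ e i

theorem num_pos (e : prs K → ℕ) : 0 < num e :=
  Finset.prod_pos fun i _ => pow_pos (prs_prime i).pos _

theorem num_factorization (e : prs K → ℕ) (i : prs K) : (num e).factorization i = e i := by
  unfold num
  rw [Nat.factorization_prod_apply (fun j _ => pow_ne_zero _ (prs_prime j).ne_zero)]
  rw [Finset.sum_eq_single i]
  · rw [(prs_prime i).factorization_pow, Finsupp.single_eq_same]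
  · intro j _ hj
    rw [(prs_prime j).factorization_pow, Finsupp.single_eq_of_ne]
    intro h
    exact hj (Subtype.ext h.symm)
  · intro h; exact absurd (Finset.mem_univ i) h

theorem num_injective : Function.Injective (num : (prs K → ℕ) → ℕ) := by
  intro e e' h
  funext i
  rw [← num_factorization e i, ← num_factorization e' i, h]

theorem log_num (e : prs K → ℕ) :
    Real.log (num e) = ∑ i : prs K, Real.log (i : ℕ) * (e i : ℝ) := by
  unfold num
  rw [Nat.cast_prod, Real.log_prod]
  · refine Finset.sum_congr rfl fun i _ => ?_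
    rw [Nat.cast_pow, Real.log_pow, mul_comm]
  · intro i _
    have := (prs_prime i).pos
    positivity

theorem dvd_num {q : ℕ} (hq : 1 ≤ q) (hqK : q ≤ K) (e : prs K → ℕ)
    (h : ∀ i : prs K, q.factorization i ≤ e i) : q ∣ num e := by
  rw [← Nat.factorization_prime_le_iff_dvd (by omega) (num_pos e).ne']
  intro p hp
  by_cases hpK : p ≤ K
  · have := num_factorization e ⟨p, mem_prs.mpr ⟨hpK, hp⟩⟩
    rw [this]
    exact h ⟨p, mem_prs.mpr ⟨hpK, hp⟩⟩
  · rw [Nat.factorization_eq_zero_of_not_dvd]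
    · exact Nat.zero_le _
    · intro hd
      have := Nat.le_of_dvd (by omega) hd
      omega

theorem coprime_num {q : ℕ} (e : prs K → ℕ) (h : ∀ i : prs K, (i : ℕ) ∣ q → e i = 0) :
    q.Coprime (num e) := by
  unfold num
  refine Nat.Coprime.prod_right fun i _ => ?_
  by_cases hi : (i : ℕ) ∣ q
  · rw [h i hi, pow_zero]; exact Nat.coprime_one_right q
  · exact ((Nat.Prime.coprime_iff_not_dvd (prs_prime i)).mpr hi).symm.pow_right _

end divisors

theorem two_pow_card_le {q : ℕ} (hq : 1 ≤ q) : 2 ^ q.primeFactors.card ≤ q := by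
  calc 2 ^ q.primeFactors.card = ∏ _p ∈ q.primeFactors, 2 := by rw [Finset.prod_const]
    _ ≤ ∏ p ∈ q.primeFactors, p := Finset.prod_le_prod' fun p hp =>
        (Nat.prime_of_mem_primeFactors hp).two_le
    _ ≤ q := Nat.le_of_dvd (by omega) (Nat.prod_primeFactors_dvd q)

end Dv

open Dv in
/-- Random divisor weights.

PROOF. Random `D = ∏_{p ≤ K} p^{e_p}`, `e_p` independent, `0 ≤ e_p ≤ J` (`J = log₂ K`), with
`P(e_p ≥ j) = π_{p,j}` for `1 ≤ j ≤ J`: for `p ≤ P`
`π_{p,j} = min(1, C min(p^{-1/2}, p^{-cj}))`, for `p > P`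
`π_{p,j} = C min(1/p, p^{-cj})` for `j ≥ 2` and `π_{p,1} = π_{p,2}` (`≤ 1` since `p > P ≥ C`);
all nonincreasing in `j`, and `π_{p,j} ≥ om C c p j` except for `p > P`, `j = 1`. Formally:
`ϖ(D) = ∏_p (π_{p,e_p} - π_{p,e_p+1})` (with `π_{p,0} = 1`, `π_{p,J+1} = 0`) on the finite set of
such `D` with `log D ≤ D_max`; the full sum is `1`. Given `q₁, q₂`: the events
`q₁ ∣ D` (probability `∏_{p ∣ q₁} π_{p,v_p(q₁)} ≥ wt q₁`), and `gcd(q₂, D) = 1`
(probability `≥ ∏_{p ∣ q₂} (1 - C/p) ≥ 1 - C (log₂ K)/P ≥ 1/2` if `CP` is large; `q₂` has at most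
`log₂ K` prime factors, all `> P`) are independent, and conditionally on `q₁ ∣ D` the
expectation of `log D = ∑ e_p log p` is at most `C₁ (√P + log K)`:
primes `p ∤ q₁`, `p ≤ P`: `E e_p ≤ ∑_j π_{p,j} ≤ C₂ p^{-1/2}`, and
`∑_{p ≤ P} log p/√p ≤ C₃ √P`; primes `P < p ≤ K`, `p ∤ q₁`: `E e_p ≤ C₂/p` and
`∑_{p ≤ K} (log p)/p ≤ C₃ log K` (both by dyadic decomposition from `∏_{p ≤ x} p ≤ 4^x`,
Mathlib `primorial_le_4_pow`); primes `p ∣ q₁`, `v = v_p(q₁)`:
`E (e_p | e_p ≥ v) = v + ∑_{j > v} π_{p,j}/π_{p,v} ≤ C₂ v`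
(`π_{p,v+i}/π_{p,v} ≤ C₄ p^{-ci}`-type bounds), total `≤ C₂ log q₁ ≤ C₂ log K`.
Markov: conditionally on `q₁ ∣ D`, `P(log D > 4 C₁ (√P + log K)) ≤ 1/4`. So
`P(q₁ ∣ D, gcd(q₂, D) = 1, log D ≤ CD (√P + log K)) ≥ (1/2 - 1/4) wt q₁`, `CD = 4 C₁`. -/
theorem exists_divisor_weights (C c : ℝ) (hC : 1 ≤ C) (hc : 0 < c) (hc1 : c ≤ 1) :
    ∃ CP CD : ℝ, 0 < CP ∧ 0 < CD ∧ ∀ K P : ℕ, 2 ≤ K → CP * Real.log K ≤ (P : ℝ) →
      ∃ (DD : Finset ℕ) (ϖ : ℕ → ℝ),
        (∀ D ∈ DD, 1 ≤ D ∧ Real.log D ≤ CD * (Real.sqrt P + Real.log K)) ∧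
        (∀ D, 0 ≤ ϖ D) ∧ ∑ D ∈ DD, ϖ D ≤ 1 ∧
        ∀ q₁ q₂ : ℕ, 1 ≤ q₁ → 1 ≤ q₂ → q₁ * q₂ ≤ K → q₁.Coprime q₂ →
          (∀ p : ℕ, p.Prime → P < p → p ∣ q₁ → p ^ 2 ∣ q₁) →
          (∀ p : ℕ, p.Prime → p ∣ q₂ → P < p) →
          wt C c q₁ ≤ 4 * ∑ D ∈ DD.filter (fun D => q₁ ∣ D ∧ q₂.Coprime D), ϖ D := by
  have hr1 : (2 : ℝ) ^ (-c) < 1 := Real.rpow_lt_one_of_one_lt_of_neg (by norm_num) (by linarith)
  set C3 : ℝ := C * (2 / (1 - (2 : ℝ) ^ (-c))) with hC3
  have hC30 : 0 < C3 := mul_pos (by linarith) (div_pos (by norm_num) (by linarith))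
  have hl4 : 0 < Real.log 4 := Real.log_pos (by norm_num)
  set CD : ℝ := 4 * (C3 * (4 * Real.log 4 + 2) + (1 + C3)) with hCD
  have hCD0 : 0 < CD := by positivity
  refine ⟨4 * C, CD, by linarith, hCD0, ?_⟩
  intro K P hK hP
  have hlogK : 0 < Real.log K := Real.log_pos (by exact_mod_cast (by omega : 1 < K))
  set L : ℝ := CD * (Real.sqrt P + Real.log K) with hL
  have hL0 : 0 < L := mul_pos hCD0 (by positivity)
  have hP0 : (0 : ℝ) < P := lt_of_lt_of_le (by positivity) hP
  set E := Fintype.piFinset (fun _ : prs K => Finset.range (K + 1)) with hE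
  set G : (prs K → ℕ) → ℝ := fun e => ∏ i : prs K, mu C c P K i (e i) with hG
  have hp2 : ∀ i : prs K, 2 ≤ (i : ℕ) := fun i => (prs_prime i).two_le
  have hmu : ∀ (i : prs K) j, 0 ≤ mu C c P K i j := fun i j => mu_nonneg hC hc (hp2 i) j
  have hG0 : ∀ e, 0 ≤ G e := fun e => Finset.prod_nonneg fun i _ => hmu i _
  have hϖ : ∀ e : prs K → ℕ, (∏ i : prs K, mu C c P K i ((num e).factorization i)) = G e := by
    intro e
    refine Finset.prod_congr rfl fun i _ => ?_
    rw [num_factorization]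
  refine ⟨(E.filter (fun e => ∑ i : prs K, Real.log (i : ℕ) * (e i : ℝ) ≤ L)).image num,
    fun D => ∏ i : prs K, mu C c P K i (D.factorization i), ?_, ?_, ?_, ?_⟩
  · intro D hD
    rw [Finset.mem_image] at hD
    obtain ⟨e, he, rfl⟩ := hD
    refine ⟨num_pos e, ?_⟩
    rw [log_num]
    exact (Finset.mem_filter.mp he).2
  · intro D
    exact Finset.prod_nonneg fun i _ => hmu i _
  · rw [Finset.sum_image (fun a _ b _ h => num_injective h)]
    simp only [hϖ]
    calc ∑ e ∈ E.filter (fun e => ∑ i : prs K, Real.log (i : ℕ) * (e i : ℝ) ≤ L), G e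
        ≤ ∑ e ∈ E, G e := Finset.sum_le_sum_of_subset_of_nonneg (Finset.filter_subset _ _)
          fun e _ _ => hG0 e
      _ = ∏ i : prs K, ∑ j ∈ Finset.range (K + 1), mu C c P K i j :=
          sum_prod K (fun (i : prs K) j => mu C c P K i j)
      _ = ∏ i : prs K, (1 : ℝ) := by
          refine Finset.prod_congr rfl fun i _ => ?_
          have := sum_mu (C := C) (c := c) (P := P) (J := K) (p := i) (v := 0) (Nat.zero_le _)
          simp only [Nat.zero_le, if_true, pp_zero] at this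
          exact this
      _ ≤ 1 := by simp
  · intro q₁ q₂ hq₁ hq₂ hqK hcop hsq hbig
    have hq₁K : q₁ ≤ K := le_trans (Nat.le_mul_of_pos_right _ (by omega)) hqK
    have hq₂K : q₂ ≤ K := le_trans (Nat.le_mul_of_pos_left _ (by omega)) hqK
    set v : prs K → ℕ := fun i => q₁.factorization i with hv
    set T : Finset (prs K) := Finset.univ.filter (fun i => (i : ℕ) ∣ q₂) with hT
    have hvK : ∀ i, v i ≤ K := fun i =>
      ((Nat.factorization_lt (i : ℕ) (by omega : q₁ ≠ 0)).le).trans hq₁K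
    have hvT : ∀ i ∈ T, v i = 0 := by
      intro i hi
      rw [hT, Finset.mem_filter] at hi
      refine Nat.factorization_eq_zero_of_not_dvd fun hd => ?_
      exact Nat.not_coprime_of_dvd_of_dvd (prs_prime i).one_lt hd hi.2 hcop
    have hcardT : (2 : ℝ) ^ T.card ≤ K := by
      have h1 : T.card ≤ q₂.primeFactors.card := by
        refine Finset.card_le_card_of_injOn (fun i => (i : ℕ)) ?_ ?_
        · intro i hi
          have hi' := Finset.mem_filter.mp hi
          exact Nat.mem_primeFactors.mpr ⟨prs_prime i, hi'.2, by omega⟩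
        · intro a _ b _ hab
          exact Subtype.ext hab
      have h2 : 2 ^ T.card ≤ K :=
        ((Nat.pow_le_pow_right (by norm_num) h1).trans (two_pow_card_le hq₂)).trans hq₂K
      exact_mod_cast h2
    have hcardT' : (T.card : ℝ) ≤ 2 * Real.log K := by
      have h1 := Real.log_le_log (by positivity) hcardT
      rw [Real.log_pow] at h1
      have h2 : (1 / 2 : ℝ) ≤ Real.log 2 := by linarith [Real.log_two_gt_d9]
      have h3 : (0 : ℝ) ≤ T.card := Nat.cast_nonneg _
      nlinarith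
    have hmk := markov (ι := prs K) K (fun i j => mu C c P K i j) hmu v T
      (fun i => pp C c P K i (v i)) (fun i => sum_mu (hvK i))
      (fun i hi => by simp only [hvT i hi, pp_zero])
      (by
        have h1 : ∀ i ∈ T, (∑ j ∈ Finset.range (K + 1),
            (if v i ≤ j then mu C c P K i j else 0) * (if j = 0 then 0 else 1)) ≤ C / P := by
          intro i hi
          have h2 : ∑ j ∈ Finset.range (K + 1),
              (if v i ≤ j then mu C c P K i j else 0) * (if j = 0 then 0 else 1) =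
              ∑ j ∈ Finset.range (K + 1), (if 1 ≤ j then mu C c P K i j else 0) := by
            refine Finset.sum_congr rfl fun j _ => ?_
            rw [hvT i hi]
            rcases Nat.eq_zero_or_pos j with h | h
            · subst h; simp
            · rw [if_pos (Nat.zero_le _), if_neg (by omega), if_pos (by omega), mul_one]
          rw [h2, sum_mu (by omega)]
          have hi' := (Finset.mem_filter.mp hi).2
          have hPi : P < (i : ℕ) := hbig i (prs_prime i) hi'
          have h3 := pp_le_mm (C := C) (c := c) (P := P) (J := K) hC (hp2 i) (le_refl 1)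
          have h4 : mm c P i 1 ≤ 1 / (i : ℕ) := by
            refine (min_le_left _ _).trans ?_
            unfold av
            rw [if_neg (by omega)]
          have h5 : (1 : ℝ) / (i : ℕ) ≤ 1 / P :=
            one_div_le_one_div_of_le hP0 (by exact_mod_cast hPi.le)
          calc pp C c P K i 1 ≤ C * mm c P i 1 := h3
            _ ≤ C * (1 / P) := mul_le_mul_of_nonneg_left (h4.trans h5) (by linarith)
            _ = C / P := by ring
        refine (Finset.sum_le_sum h1).trans ?_
        rw [Finset.sum_const, nsmul_eq_mul, mul_div_assoc', div_le_iff₀ hP0]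
        nlinarith)
      (fun i => Real.log (i : ℕ)) (fun i => Real.log_natCast_nonneg _)
      (fun i => C3 * av P i + (1 + C3) * (v i : ℝ))
      (fun i => sum_mu_mul hC hc (hp2 i) (hvK i)) L hL0 (by
        have h1 : ∑ i : prs K, Real.log (i : ℕ) * (C3 * av P i + (1 + C3) * (v i : ℝ)) =
            C3 * ∑ i : prs K, Real.log (i : ℕ) * av P i +
            (1 + C3) * ∑ i : prs K, Real.log (i : ℕ) * (v i : ℝ) := by
          rw [Finset.mul_sum, Finset.mul_sum, ← Finset.sum_add_distrib]
          exact Finset.sum_congr rfl fun i _ => by ring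
        have h2 : ∑ i : prs K, Real.log (i : ℕ) * av P i ≤
            4 * Real.log 4 * Real.sqrt P + 2 * Real.log K := by
          have e1 : ∑ i : prs K, Real.log (i : ℕ) * av P i =
              ∑ p ∈ prs K, Real.log (p : ℕ) * av P p :=
            Finset.sum_coe_sort (prs K) (fun p => Real.log (p : ℕ) * av P p)
          rw [e1]
          have e2 : ∀ p ∈ prs K, Real.log (p : ℕ) * av P p ≤
              (if p ≤ P then Real.log p / Real.sqrt p else 0) + Real.log p / p := by
            intro p _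
            have hl : 0 ≤ Real.log p := Real.log_natCast_nonneg p
            unfold av
            split_ifs
            · have : 0 ≤ Real.log p / p := by positivity
              rw [mul_one_div]; linarith
            · rw [mul_one_div, zero_add]
          refine (Finset.sum_le_sum e2).trans ?_
          rw [Finset.sum_add_distrib]
          refine add_le_add ?_ (sum_log_div_le K (by omega))
          rw [← Finset.sum_filter]
          refine le_trans ?_ (sum_log_div_sqrt_le P)
          refine Finset.sum_le_sum_of_subset_of_nonneg ?_ fun p _ _ =>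
            div_nonneg (Real.log_natCast_nonneg p) (Real.sqrt_nonneg _)
          intro p hp
          rw [Finset.mem_filter] at hp ⊢
          rw [Finset.mem_range]
          exact ⟨by omega, (mem_prs.mp hp.1).2⟩
        have h3 : ∑ i : prs K, Real.log (i : ℕ) * (v i : ℝ) ≤ Real.log K := by
          rw [← log_num v]
          refine Real.log_le_log (by exact_mod_cast num_pos v) ?_
          have : num v ∣ q₁ := by
            rw [← Nat.factorization_prime_le_iff_dvd (num_pos v).ne' (by omega)]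
            intro p hp
            by_cases hpK : p ≤ K
            · have := num_factorization v ⟨p, mem_prs.mpr ⟨hpK, hp⟩⟩
              rw [this]
            · rw [Nat.factorization_eq_zero_of_not_dvd]
              · exact Nat.zero_le _
              · intro hd
                unfold num at hd
                rw [Prime.dvd_finsetProd_iff hp.prime] at hd
                obtain ⟨i, -, hi⟩ := hd
                have h5 := hp.dvd_of_dvd_pow hi
                have h6 := (Nat.prime_dvd_prime_iff_eq hp (prs_prime i)).mp h5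
                have h7 := (mem_prs.mp i.2).1
                omega
          exact_mod_cast (Nat.le_of_dvd (by omega) this).trans hq₁K
        rw [h1]
        have hs : 0 ≤ Real.sqrt P := Real.sqrt_nonneg _
        have h4 := mul_le_mul_of_nonneg_left h2 hC30.le
        have h5 := mul_le_mul_of_nonneg_left h3 (by linarith : (0 : ℝ) ≤ 1 + C3)
        rw [hL, hCD]
        have h6 : 0 ≤ C3 * (4 * Real.log 4) * Real.log K := by positivity
        have h7 : 0 ≤ (C3 * 2 + (1 + C3)) * Real.sqrt P := by positivity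
        nlinarith)
    have hwt : wt C c q₁ ≤ ∏ i : prs K, pp C c P K i (v i) := by
      have e1 : ∏ i : prs K, pp C c P K i (v i) =
          ∏ p ∈ prs K, pp C c P K p (q₁.factorization p) :=
        Finset.prod_coe_sort (prs K) (fun p => pp C c P K p (q₁.factorization p))
      have hsub : q₁.primeFactors ⊆ prs K := by
        intro p hp
        rw [mem_prs]
        exact ⟨(Nat.le_of_mem_primeFactors hp).trans hq₁K, Nat.prime_of_mem_primeFactors hp⟩
      rw [e1, ← Finset.prod_subset hsub (fun p _ hp => by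
        have : q₁.factorization p = 0 := by
          rw [← Finsupp.notMem_support_iff, Nat.support_factorization]; exact hp
        rw [this, pp_zero])]
      unfold wt
      rw [Finsupp.prod, Nat.support_factorization]
      refine Finset.prod_le_prod (fun p hp => ?_) fun p hp => ?_
      · unfold om
        have : (0 : ℝ) ≤ p := Nat.cast_nonneg p
        refine le_min (by norm_num) (le_min (by positivity) ?_)
        split_ifs <;> positivity
      · have hpp := Nat.prime_of_mem_primeFactors hp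
        have hpos : 1 ≤ q₁.factorization p :=
          hpp.factorization_pos_of_dvd (by omega) (Nat.dvd_of_mem_primeFactors hp)
        refine om_le_pp hC hpp.two_le hpos
          (((Nat.factorization_lt p (by omega : q₁ ≠ 0)).le).trans hq₁K) fun hPp => ?_
        have h1 := hsq p hpp hPp (Nat.dvd_of_mem_primeFactors hp)
        exact (hpp.pow_dvd_iff_le_factorization (by omega)).mp h1
    refine hwt.trans (hmk.trans ?_)
    refine mul_le_mul_of_nonneg_left ?_ (by norm_num)
    calc ∑ e ∈ E.filter (fun e => (∀ i, v i ≤ e i) ∧ (∀ i ∈ T, e i = 0) ∧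
            ∑ i : prs K, Real.log (i : ℕ) * (e i : ℝ) ≤ L), G e
        = ∑ D ∈ (E.filter (fun e => (∀ i, v i ≤ e i) ∧ (∀ i ∈ T, e i = 0) ∧
            ∑ i : prs K, Real.log (i : ℕ) * (e i : ℝ) ≤ L)).image num,
            ∏ i : prs K, mu C c P K i (D.factorization i) := by
          rw [Finset.sum_image (fun a _ b _ h => num_injective h)]
          exact Finset.sum_congr rfl fun e _ => (hϖ e).symm
      _ ≤ _ := by
          refine Finset.sum_le_sum_of_subset_of_nonneg ?_ fun D _ _ =>
            Finset.prod_nonneg fun i _ => hmu i _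
          intro D hD
          rw [Finset.mem_image] at hD
          obtain ⟨e, he, rfl⟩ := hD
          rw [Finset.mem_filter] at he
          rw [Finset.mem_filter, Finset.mem_image]
          refine ⟨⟨e, Finset.mem_filter.mpr ⟨he.1, he.2.2.2⟩, rfl⟩,
            dvd_num hq₁ hq₁K e he.2.1, coprime_num e fun i hi => ?_⟩
          exact he.2.2.1 i (Finset.mem_filter.mpr ⟨Finset.mem_univ _, hi⟩)

end Vale.Agent.P042.UB
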