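import Mathlib

/-!
P042, upper bound `r_h(N) ≤ C N exp (-c √log N)`: common definitions.
-/

set_option autoImplicit false

namespace Vale.Agent.P042.UB

open Polynomial

/-- `e t = exp (2 π i t)`. -/
noncomputable def e (t : ℝ) : ℂ := Complex.exp (((2 * Real.pi * t : ℝ) : ℂ) * Complex.I)

theorem e_zero : e 0 = 1 := by simp [e]

theorem e_add (s t : ℝ) : e (s + t) = e s * e t := by
  rw [e, e, e, ← Complex.exp_add]
  congr 1
  push_cast
  ring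

theorem e_int (n : ℤ) : e (n : ℝ) = 1 := by
  rw [e, Complex.exp_eq_one_iff]
  exact ⟨n, by push_cast; ring⟩

theorem e_nat (n : ℕ) : e (n : ℝ) = 1 := by
  have := e_int (n : ℤ)
  simpa using this

theorem e_add_int (t : ℝ) (n : ℤ) : e (t + n) = e t := by
  rw [e_add, e_int, mul_one]

theorem norm_e (t : ℝ) : ‖e t‖ = 1 := by
  rw [e, Complex.norm_exp_ofReal_mul_I]

theorem e_neg (t : ℝ) : e (-t) = (starRingEnd ℂ) (e t) := by
  rw [e, e, ← Complex.exp_conj, map_mul, Complex.conj_ofReal, Complex.conj_I]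
  congr 1
  push_cast
  ring

theorem e_ne_zero (t : ℝ) : e t ≠ 0 := Complex.exp_ne_zero _

theorem continuous_e : Continuous e := by
  unfold e
  fun_prop

theorem norm_e_sub_e_le (s t : ℝ) : ‖e s - e t‖ ≤ 2 * Real.pi * |s - t| := by
  have h : e s - e t = e t * (e (s - t) - 1) := by
    rw [mul_sub, mul_one, ← e_add]
    congr 2
    ring
  rw [h, norm_mul, norm_e, one_mul, e]
  have h1 : ‖Complex.exp (((2 * Real.pi * (s - t) : ℝ) : ℂ) * Complex.I) - 1‖ ≤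
      ‖(2 * Real.pi * (s - t) : ℝ)‖ := by
    rw [mul_comm]
    exact Real.norm_exp_I_mul_ofReal_sub_one_le
  refine h1.trans (le_of_eq ?_)
  rw [Real.norm_eq_abs, abs_mul, abs_mul, abs_of_pos Real.pi_pos]
  simp

/-- Distance to the nearest integer. -/
noncomputable def nint (t : ℝ) : ℝ := |t - round t|

/-- The complete sum `(1/q) ∑_{x mod q} e(a g(x) / q)`. -/
noncomputable def cSum (g : ℤ[X]) (a : ℤ) (q : ℕ) : ℂ :=
  (∑ x ∈ Finset.range q, e ((a : ℝ) * ((g.eval (x : ℤ) : ℤ) : ℝ) / (q : ℝ))) / (q : ℂ)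

/-- The Weyl sum `(1/M) ∑_{n=1}^M e(θ g(n))`. -/
noncomputable def wSum (g : ℤ[X]) (M : ℕ) (θ : ℝ) : ℂ :=
  (∑ n ∈ Finset.Icc 1 M, e (θ * ((g.eval (n : ℤ) : ℤ) : ℝ))) / (M : ℂ)

/-- The family of auxiliary polynomials `H d (x) = h (r_d + d x) / λ(d)` attached to an
intersective polynomial `h = H 1` of degree `k`, with all the properties used in the proof. -/
structure AuxFamily (k : ℕ) where
  /-- the completely multiplicative function `λ` -/
  lam : ℕ → ℕ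
  /-- the auxiliary polynomials -/
  H : ℕ → ℤ[X]
  /-- a bound for the coefficients -/
  B : ℕ
  /-- a bound for the content of the nonconstant part -/
  Δ : ℕ
  lam_mul : ∀ a b : ℕ, 0 < a → 0 < b → lam (a * b) = lam a * lam b
  dvd_lam : ∀ d : ℕ, 0 < d → d ∣ lam d
  lam_le : ∀ d : ℕ, 0 < d → lam d ≤ d ^ k
  lam_pos : ∀ d : ℕ, 0 < d → 0 < lam d
  natDegree_H : ∀ d : ℕ, 0 < d → (H d).natDegree = k
  coeff_pos : ∀ d : ℕ, 0 < d → ∀ j : ℕ, j ≤ k → 0 < (H d).coeff j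
  coeff_le : ∀ d : ℕ, 0 < d → ∀ j : ℕ, j ≤ k → (H d).coeff j ≤ (B : ℤ) * (H d).coeff k
  lead_le : ∀ d : ℕ, 0 < d → (H d).coeff k ≤ (B : ℤ) * (d : ℤ) ^ k
  content : ∀ d : ℕ, 0 < d → ∀ t : ℕ, (∀ j : ℕ, 1 ≤ j → (t : ℤ) ∣ (H d).coeff j) → t ≤ Δ
  inherit : ∀ d q n : ℕ, 0 < d → 0 < q → 0 < n →
    ∃ y : ℕ, 0 < y ∧ (lam q : ℤ) * (H (d * q)).eval (n : ℤ) = (H d).eval (y : ℤ)

/-- The local bound `ω(p, j)`. -/
noncomputable def om (C c : ℝ) (p j : ℕ) : ℝ :=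
  min 1 (min (C * (p : ℝ) ^ (-(c * j))) (if j = 1 then C / Real.sqrt p else C / p))

/-- The multiplicative majorant `w(q) = ∏_{p^j ∥ q} ω(p, j)` of the complete sums. -/
noncomputable def wt (C c : ℝ) (q : ℕ) : ℝ := q.factorization.prod (fun p j => om C c p j)

/-- Fourier transform of a function on `{1, …, N}`. -/
noncomputable def fhat (N : ℕ) (f : ℤ → ℝ) (θ : ℝ) : ℂ :=
  ∑ n ∈ Finset.Icc (1 : ℤ) N, (f n : ℂ) * e (-((n : ℝ) * θ))

/-- Energy of `f` on the arcs of radius `r` around the reduced fractions of denominator `q`. -/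
noncomputable def arcEnergy (N : ℕ) (f : ℤ → ℝ) (r : ℝ) (q : ℕ) : ℝ :=
  ∑ a ∈ (Finset.range q).filter (fun a => a.Coprime q),
    ∫ β in (-r)..r, ‖fhat N f ((a : ℝ) / q + β)‖ ^ 2

/-- The Fejér type weights `v(j) = (1/H) sinc²(π j / H)`. -/
noncomputable def fw (H : ℕ) (j : ℤ) : ℝ := Real.sinc (Real.pi * j / H) ^ 2 / H

/-- `G_x(φ) = ∑_j v(j) f(x + D j) e(-j φ)`. -/
noncomputable def Gs (H : ℕ) (f : ℤ → ℝ) (D : ℕ) (x : ℤ) (φ : ℝ) : ℂ :=
  ∑' j : ℤ, ((fw H j * f (x + D * j) : ℝ) : ℂ) * e (-((j : ℝ) * φ))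

/-- `A` (a set of integers) has no difference equal to a value `g(n)`, `n ≥ 1`. -/
def Avoids (g : ℤ[X]) (A : Finset ℤ) : Prop :=
  ∀ a ∈ A, ∀ b ∈ A, ∀ n : ℕ, 1 ≤ n → a - b ≠ g.eval (n : ℤ)

/-- The balanced function `1_A - α 1_{[N]}`, `α = |A|/N`. -/
noncomputable def bal (N : ℕ) (A : Finset ℤ) (x : ℤ) : ℝ :=
  (if x ∈ A then 1 else 0) - (if x ∈ Finset.Icc (1 : ℤ) N then (A.card : ℝ) / N else 0)

/-- No density increment of `A` (density `α`) on progressions of length `L` and difference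
`λ(q)`, `q ≤ Q`, at level `(1 + c) α`. -/
def NoIncr {k : ℕ} (F : AuxFamily k) (A : Finset ℤ) (α c : ℝ) (Q L : ℕ) : Prop :=
  ∀ q : ℕ, 1 ≤ q → q ≤ Q → ∀ b : ℤ,
    (((Finset.Icc (1 : ℤ) L).filter (fun i => b + (F.lam q : ℤ) * i ∈ A)).card : ℝ) ≤
      (1 + c) * α * L

end Vale.Agent.P042.UB
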