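import Vale.Agent.Lib.P042.UB.Circle.Incr

set_option autoImplicit false

namespace Vale.Agent.P042.UB

open Polynomial

theorem card_le_of_subset_Icc (N : ℕ) (A : Finset ℤ) (hA : A ⊆ Finset.Icc (1 : ℤ) N) :
    A.card ≤ N := by
  have := Finset.card_le_card hA
  rw [Int.card_Icc] at this
  simpa using this

/-- One step of the iteration. -/
theorem step {k : ℕ} (hk : 1 ≤ k) (F : AuxFamily k) :
    ∃ C₀ C₁ : ℕ, 1 ≤ C₀ ∧ 1 ≤ C₁ ∧ ∀ n d N : ℕ, C₁ ≤ n → 0 < d → (d * 2 ^ (n ^ 2)) ^ C₁ ≤ N →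
      ∀ A : Finset ℤ, A ⊆ Finset.Icc (1 : ℤ) N → N ≤ A.card * 2 ^ (2 * n) → Avoids (F.H d) A →
      ∃ (d' N' : ℕ) (A' : Finset ℤ), 0 < d' ∧ d' ≤ d * 2 ^ (C₀ * n) ∧ N' = N / 2 ^ (C₀ * n) ∧
        A' ⊆ Finset.Icc (1 : ℤ) N' ∧ Avoids (F.H d') A' ∧
        (1 + 1 / 1000) * ((A.card : ℝ) / N) * N' ≤ (A'.card : ℝ) := by
  obtain ⟨C₀, C₁, hC₀, hC₁, hinc⟩ := increment hk F
  refine ⟨C₀, C₁, hC₀, hC₁, ?_⟩
  intro n d N hn hd hdN A hA hcard hav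
  have hN1 : 1 ≤ N := le_trans (Nat.one_le_pow _ _ (by positivity)) hdN
  have hNR : (0 : ℝ) < N := by exact_mod_cast hN1
  have hαn : (1 / 2 : ℝ) ^ (2 * n) ≤ (A.card : ℝ) / N := by
    rw [le_div_iff₀ hNR]
    have h1 : (N : ℝ) ≤ A.card * 2 ^ (2 * n) := by exact_mod_cast hcard
    calc (1 / 2 : ℝ) ^ (2 * n) * N ≤ (1 / 2 : ℝ) ^ (2 * n) * (A.card * 2 ^ (2 * n)) :=
          mul_le_mul_of_nonneg_left h1 (by positivity)
      _ = A.card * ((1 / 2 : ℝ) * 2) ^ (2 * n) := by rw [mul_pow]; ring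
      _ = A.card := by norm_num
  have hα1 : (A.card : ℝ) / N ≤ 1 := by
    rw [div_le_one hNR]
    exact_mod_cast card_le_of_subset_Icc N A hA
  have hα : (A.card : ℝ) = (A.card : ℝ) / N * N := by field_simp
  have h := hinc n d N hn hd hdN A hA _ hαn hα1 hα hav
  unfold NoIncr at h
  push Not at h
  obtain ⟨q, hq1, hq2, b, hb⟩ := h
  refine ⟨d * q, N / 2 ^ (C₀ * n), (Finset.Icc (1 : ℤ) ((N / 2 ^ (C₀ * n) : ℕ) : ℤ)).filter
    (fun i => b + (F.lam q : ℤ) * i ∈ A), by positivity, Nat.mul_le_mul_left d hq2, rfl,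
    Finset.filter_subset _ _, ?_, hb.le⟩
  intro i hi i' hi' n' hn' heq
  rw [Finset.mem_filter] at hi hi'
  obtain ⟨y, hy, hy'⟩ := F.inherit d q n' hd (by omega) (by omega)
  refine hav _ hi.2 _ hi'.2 y hy ?_
  rw [← hy', ← heq]
  ring

theorem iterate_aux {k : ℕ} (F : AuxFamily k) (C₀ C₁ : ℕ) (hC₀ : 1 ≤ C₀) (hC₁ : 1 ≤ C₁)
    (hstep : ∀ n d N : ℕ, C₁ ≤ n → 0 < d → (d * 2 ^ (n ^ 2)) ^ C₁ ≤ N →
      ∀ A : Finset ℤ, A ⊆ Finset.Icc (1 : ℤ) N → N ≤ A.card * 2 ^ (2 * n) → Avoids (F.H d) A →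
      ∃ (d' N' : ℕ) (A' : Finset ℤ), 0 < d' ∧ d' ≤ d * 2 ^ (C₀ * n) ∧ N' = N / 2 ^ (C₀ * n) ∧
        A' ⊆ Finset.Icc (1 : ℤ) N' ∧ Avoids (F.H d') A' ∧
        (1 + 1 / 1000) * ((A.card : ℝ) / N) * N' ≤ (A'.card : ℝ))
    (C n N : ℕ) (hC : C = (3000 * C₀ + 1) * C₁ + 3000 * (C₀ + 1) + C₀ + C₁ + 1) (hn : C ≤ n)
    (hN : 2 ^ (C * n ^ 2) ≤ N) (A : Finset ℤ) (hA : A ⊆ Finset.Icc (1 : ℤ) N)
    (hav : Avoids (F.H 1) A) (hcard : N ≤ A.card * 2 ^ (2 * n)) (i : ℕ) (hi : i ≤ 3000 * n) :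
    ∃ (d' N' : ℕ) (A' : Finset ℤ), 0 < d' ∧ d' ≤ 2 ^ (C₀ * n * i) ∧ 1 ≤ N' ∧
      N ≤ N' * 2 ^ ((C₀ * n + 1) * i) ∧ A' ⊆ Finset.Icc (1 : ℤ) N' ∧ Avoids (F.H d') A' ∧
      (1 + 1 / 1000) ^ i * ((A.card : ℝ) / N) * N' ≤ (A'.card : ℝ) := by
  have hN1 : 1 ≤ N := le_trans Nat.one_le_two_pow hN
  have hNR : (0 : ℝ) < N := by exact_mod_cast hN1
  induction i with
  | zero =>
    refine ⟨1, N, A, one_pos, by simp, hN1, by simp, hA, hav, ?_⟩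
    rw [pow_zero, one_mul, div_mul_cancel₀ _ hNR.ne']
  | succ i ih =>
    obtain ⟨d', N', A', hd', hd'2, hN', hNN', hA', hav', hden⟩ := ih (by omega)
    have hN'R : (0 : ℝ) < N' := by exact_mod_cast hN'
    -- size of `N'`
    have hsize : 2 ^ ((C₀ * n * i + n ^ 2) * C₁) ≤ N' := by
      have h1 : 2 ^ ((C₀ * n * i + n ^ 2) * C₁ + (C₀ * n + 1) * i) ≤ N := by
        refine le_trans (Nat.pow_le_pow_right (by norm_num) ?_) hN
        have hi' : i ≤ 3000 * n := by omega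
        have hn1 : 1 ≤ n := by omega
        calc (C₀ * n * i + n ^ 2) * C₁ + (C₀ * n + 1) * i
            ≤ (C₀ * n * (3000 * n) + n ^ 2) * C₁ + (C₀ * n + 1 * n) * (3000 * n) := by
              gcongr
              omega
          _ = ((3000 * C₀ + 1) * C₁ + 3000 * (C₀ + 1)) * n ^ 2 := by ring
          _ ≤ C * n ^ 2 := Nat.mul_le_mul_right _ (by omega)
      rw [pow_add] at h1
      exact Nat.le_of_mul_le_mul_right (h1.trans hNN') (by positivity)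
    have hcond : (d' * 2 ^ (n ^ 2)) ^ C₁ ≤ N' := by
      refine le_trans ?_ hsize
      rw [pow_mul, pow_add]
      exact Nat.pow_le_pow_left (Nat.mul_le_mul_right _ hd'2) _
    have hcard' : N' ≤ A'.card * 2 ^ (2 * n) := by
      have h1 : (1 : ℝ) ≤ (1 + 1 / 1000) ^ i := one_le_pow₀ (by norm_num)
      have h2 : (N : ℝ) ≤ A.card * 2 ^ (2 * n) := by exact_mod_cast hcard
      have h3 : (1 : ℝ) ≤ (A.card : ℝ) / N * 2 ^ (2 * n) := by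
        rw [div_mul_eq_mul_div, le_div_iff₀ hNR, one_mul]
        exact h2
      have h4 : (N' : ℝ) ≤ (A'.card : ℝ) * 2 ^ (2 * n) := by
        calc (N' : ℝ) = 1 * 1 * N' := by ring
          _ ≤ (1 + 1 / 1000) ^ i * ((A.card : ℝ) / N * 2 ^ (2 * n)) * N' := by gcongr
          _ = ((1 + 1 / 1000) ^ i * ((A.card : ℝ) / N) * N') * 2 ^ (2 * n) := by ring
          _ ≤ (A'.card : ℝ) * 2 ^ (2 * n) := by gcongr
      exact_mod_cast h4
    obtain ⟨d'', N'', A'', hd'', hd''2, hN'', hA'', hav'', hden'⟩ :=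
      hstep n d' N' (by omega) hd' hcond A' hA' hcard' hav'
    have hbig : 2 ^ (C₀ * n) ≤ N' := by
      refine le_trans (Nat.pow_le_pow_right (by norm_num) ?_) hsize
      calc C₀ * n ≤ n * n := Nat.mul_le_mul_right _ (by omega)
        _ = n ^ 2 * 1 := by ring
        _ ≤ (C₀ * n * i + n ^ 2) * C₁ := Nat.mul_le_mul (by omega) hC₁
    have hN''1 : 1 ≤ N'' := by
      rw [hN'', Nat.le_div_iff_mul_le (by positivity), one_mul]
      exact hbig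
    refine ⟨d'', N'', A'', hd'', ?_, hN''1, ?_, hA'', hav'', ?_⟩
    · refine hd''2.trans ?_
      calc d' * 2 ^ (C₀ * n) ≤ 2 ^ (C₀ * n * i) * 2 ^ (C₀ * n) := Nat.mul_le_mul_right _ hd'2
        _ = 2 ^ (C₀ * n * (i + 1)) := by rw [← pow_add]; congr 1
    · have h1 : N' ≤ N'' * 2 ^ (C₀ * n + 1) := by
        have h2 : N' < (N' / 2 ^ (C₀ * n) + 1) * 2 ^ (C₀ * n) := by
          have := Nat.lt_mul_div_succ N' (show 0 < 2 ^ (C₀ * n) by positivity)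
          calc N' < 2 ^ (C₀ * n) * (N' / 2 ^ (C₀ * n) + 1) := this
            _ = _ := mul_comm _ _
        rw [← hN''] at h2
        calc N' ≤ (N'' + 1) * 2 ^ (C₀ * n) := h2.le
          _ ≤ (N'' + N'') * 2 ^ (C₀ * n) := Nat.mul_le_mul_right _ (by omega)
          _ = N'' * 2 ^ (C₀ * n + 1) := by rw [pow_succ]; ring
      calc N ≤ N' * 2 ^ ((C₀ * n + 1) * i) := hNN'
        _ ≤ N'' * 2 ^ (C₀ * n + 1) * 2 ^ ((C₀ * n + 1) * i) := Nat.mul_le_mul_right _ h1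
        _ = N'' * 2 ^ ((C₀ * n + 1) * (i + 1)) := by
            rw [mul_assoc, ← pow_add]; congr 2; ring
    · have h1 : (1 + 1 / 1000) ^ i * ((A.card : ℝ) / N) ≤ (A'.card : ℝ) / N' := by
        rw [le_div_iff₀ hN'R]
        exact hden
      calc (1 + 1 / 1000) ^ (i + 1) * ((A.card : ℝ) / N) * N''
          = (1 + 1 / 1000) * ((1 + 1 / 1000) ^ i * ((A.card : ℝ) / N)) * N'' := by
            rw [pow_succ]; ring
        _ ≤ (1 + 1 / 1000) * ((A'.card : ℝ) / N') * N'' := by gcongr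
        _ ≤ (A''.card : ℝ) := hden'

/-- Iteration. -/
theorem main_density {k : ℕ} (hk : 1 ≤ k) (F : AuxFamily k) :
    ∃ C : ℕ, 1 ≤ C ∧ ∀ n N : ℕ, C ≤ n → 2 ^ (C * n ^ 2) ≤ N → ∀ A : Finset ℤ,
      A ⊆ Finset.Icc (1 : ℤ) N → Avoids (F.H 1) A → A.card * 2 ^ (2 * n) < N := by
  obtain ⟨C₀, C₁, hC₀, hC₁, hstep⟩ := step hk F
  refine ⟨(3000 * C₀ + 1) * C₁ + 3000 * (C₀ + 1) + C₀ + C₁ + 1, by omega, ?_⟩
  intro n N hn hN A hA hav
  by_contra hcon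
  push Not at hcon
  obtain ⟨d', N', A', -, -, hN', -, hA', -, hden⟩ :=
    iterate_aux F C₀ C₁ hC₀ hC₁ hstep _ n N rfl hn hN A hA hav hcon (3000 * n) le_rfl
  have hN1 : 1 ≤ N := le_trans Nat.one_le_two_pow hN
  have hNR : (0 : ℝ) < N := by exact_mod_cast hN1
  have hN'R : (0 : ℝ) < N' := by exact_mod_cast hN'
  have h1 : (A'.card : ℝ) ≤ N' := by exact_mod_cast card_le_of_subset_Icc N' A' hA'
  have h2 : (1 + 1 / 1000 : ℝ) ^ (3000 * n) * ((A.card : ℝ) / N) ≤ 1 := by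
    by_contra h3
    push Not at h3
    have h4 : 1 * (N' : ℝ) < (1 + 1 / 1000 : ℝ) ^ (3000 * n) * ((A.card : ℝ) / N) * N' :=
      mul_lt_mul_of_pos_right h3 hN'R
    linarith
  have h3 : (2 : ℝ) ^ (3 * n) ≤ (1 + 1 / 1000 : ℝ) ^ (3000 * n) := by
    rw [show 3000 * n = 1000 * (3 * n) by ring, pow_mul (1 + 1 / 1000 : ℝ)]
    apply pow_le_pow_left₀ (by norm_num)
    calc (2 : ℝ) = 1 + ((1000 : ℕ) : ℝ) * (1 / 1000) := by norm_num
      _ ≤ (1 + 1 / 1000) ^ 1000 := one_add_mul_le_pow (by norm_num) 1000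
  have h4 : (1 : ℝ) ≤ (A.card : ℝ) / N * 2 ^ (2 * n) := by
    rw [div_mul_eq_mul_div, le_div_iff₀ hNR, one_mul]
    exact_mod_cast hcon
  have h5 : (0 : ℝ) ≤ (A.card : ℝ) / N := by positivity
  have h6 : (2 : ℝ) ^ n ≤ 1 := by
    calc (2 : ℝ) ^ n = 2 ^ n * 1 := (mul_one _).symm
      _ ≤ 2 ^ n * ((A.card : ℝ) / N * 2 ^ (2 * n)) := by gcongr
      _ = 2 ^ (3 * n) * ((A.card : ℝ) / N) := by
          rw [show 3 * n = n + 2 * n by ring, pow_add]; ring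
      _ ≤ (1 + 1 / 1000 : ℝ) ^ (3000 * n) * ((A.card : ℝ) / N) := by gcongr
      _ ≤ 1 := h2
  have h7 : (2 : ℝ) ^ 1 ≤ 2 ^ n := pow_le_pow_right₀ (by norm_num) (by omega)
  norm_num at h7
  linarith

end Vale.Agent.P042.UB
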